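import Vale.Agent.P134.H873.Gain

/-!
# P134 / H873 : LI6, final form
-/

open MeasureTheory Set Real

namespace Vale.Agent.P134.H873

namespace Ray

variable {s3 c1 C1 Cz a H K q κ τ T : ℝ} {ψ c c' z z' : ℝ → ℝ}

/-- `∫ wt` -/
noncomputable def M1 : ℝ := ∫ t, wt t

theorem M1_nonneg : 0 ≤ M1 := integral_nonneg fun t => (wt_pos t).le

/-- constant of the main gain -/
noncomputable def mc (s3 c1 : ℝ) : ℝ :=
  (1 / 2) * (3 * (2 * g (1 / 2) * g1 (s3 + 2) * c1) * g1 (s3 + 2) ^ 2)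

theorem mc_pos {s3 c1 : ℝ} (hc1 : 0 < c1) : 0 < mc s3 c1 := by
  have h1 : 0 < g (1 / 2) := g_pos (by norm_num)
  have h2 := g1_pos (s3 + 2)
  unfold mc; positivity

/-- far constant -/
noncomputable def farc (s3 C1 : ℝ) : ℝ :=
  (3 / 2) * (3 * (3 / 2) * 27 * exp (3 * √2 * s3) * C1 * (1 + s3) ^ 2)

noncomputable def Y0 (s3 : ℝ) : ℝ := (2 * s3) * (1 + 2 * s3) ^ 2 * exp (2 * √2 * (2 * s3))

theorem gain_pos (h : Ray s3 c1 C1 Cz a H K q κ τ T ψ c c' z z') (ha : 0 ≤ a) (hc1 : 0 ≤ c1)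
    (hC1 : 0 ≤ C1) {M : ℝ} (hM : 0 ≤ M) (hq : C1 * (q * (1 + T) ^ 2) ≤ 1 / 2)
    (hq2 : C1 * q * 2 * (1 + 2) ^ 2 * exp (2 * √2 * 2) ≤ 1 / 2)
    (hqM : C1 * q * (1 + M) ^ 2 * exp (2 * √2 * M) ≤ 1) :
    mc s3 c1 * q * (c 0 - 2 * κ) - (farc s3 C1 * exp (-(√2 / 2 * M)) * q +
      (3 / 2) * ((3 * κ * s3 + C1 * q * (2 * s3 + 4 * s3 ^ 2)) * 2 * (C1 * q * Y0 s3) +
        9 * (C1 * q * Y0 s3) ^ 2) * exp (√2 / 2 * s3)) * M1 ≤
      ∫ t, kw H K c z t * G a ψ t := by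
  have hs3 := h.s3_nonneg
  have hq0 := h.q_nonneg
  have hκ := h.κ_nonneg
  have has3 : a ≤ s3 := (le_abs_self a).trans h.a_le
  have hY0 : 0 ≤ Y0 s3 := by unfold Y0; positivity
  set E1 := farc s3 C1 * exp (-(√2 / 2 * M)) * q with hE1
  set E2 := (3 / 2) * ((3 * κ * s3 + C1 * q * (2 * s3 + 4 * s3 ^ 2)) * 2 * (C1 * q * Y0 s3) +
        9 * (C1 * q * Y0 s3) ^ 2) with hE2
  have hE1' : 0 ≤ E1 := by rw [hE1]; unfold farc; positivity
  have hE2' : 0 ≤ E2 := by rw [hE2]; positivity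
  set φ : ℝ → ℝ := fun σ => kw H K c z (σ - a) * G a ψ (σ - a) with hφ
  have hI0 : Integrable (fun t => kw H K c z t * G a ψ t) := h.integrable_gain
  have hφi : Integrable φ := hI0.comp_sub_right a
  have e1 : ∫ t, kw H K c z t * G a ψ t = ∫ σ, φ σ :=
    (integral_sub_right_eq_self (fun t => kw H K c z t * G a ψ t) a).symm
  have e2 : ∫ σ, φ σ = ∫ σ in Ioi (0 : ℝ), (φ σ + φ (-σ)) := by
    rw [← intervalIntegral.integral_Iic_add_Ioi hφi.integrableOn hφi.integrableOn (b := 0)]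
    have := integral_comp_neg_Ioi (c := (0 : ℝ)) (f := φ)
    rw [neg_zero] at this
    rw [← this, ← integral_add hφi.comp_neg.integrableOn hφi.integrableOn]
    refine setIntegral_congr_fun measurableSet_Ioi fun σ _ => ?_
    ring
  set mm := mc s3 c1 * q * (c 0 - 2 * κ) with hmm
  set L : ℝ → ℝ := fun σ => (Icc (a + 1) (a + 2)).indicator (fun _ => mm) σ -
    (E1 + E2 * exp (√2 / 2 * s3)) * wt σ with hL
  have hLi : IntegrableOn L (Ioi 0) := by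
    refine Integrable.sub ?_ (integrable_wt.integrableOn.const_mul _)
    refine IntegrableOn.integrable_indicator ?_ measurableSet_Icc
    refine (integrableOn_const (by
      refine ne_of_lt (lt_of_le_of_lt (Measure.restrict_apply_le _ _) ?_)
      simp)).mono_set le_rfl
  have hpt : ∀ σ ∈ Ioi (0 : ℝ), L σ ≤ φ σ + φ (-σ) := by
    intro σ hσ
    simp only [mem_Ioi] at hσ
    have e3 : φ (-σ) = kw H K c z (-(σ + a)) * G a ψ (-(σ + a)) := by
      simp only [hφ]; rw [show -σ - a = -(σ + a) by ring]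
    rw [e3]
    have hw := wt_pos σ
    by_cases hσa : σ < a
    · have h1 := h.near_piece ha hC1 hq hσ hσa (Y := C1 * q * Y0 s3)
        (le_of_eq (by unfold Y0; ring))
      have h2 : L σ ≤ -E2 := by
        have hn : σ ∉ Icc (a + 1) (a + 2) := fun hh => by linarith [hh.1]
        simp only [hL, Set.indicator_of_notMem hn]
        have h3 : 1 ≤ exp (√2 / 2 * s3) * wt σ := by
          unfold wt
          rw [abs_of_pos hσ]
          have hr := r_pos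
          have : 1 ≤ exp (√2 / 2 * s3) * exp (-(√2 / 2 * σ)) := by
            rw [← Real.exp_add]
            apply Real.one_le_exp
            have : √2 / 2 * σ ≤ √2 / 2 * s3 := by gcongr; linarith
            linarith
          calc (1 : ℝ) ≤ exp (√2 / 2 * s3) * exp (-(√2 / 2 * σ)) := this
            _ = exp (√2 / 2 * s3) * (1 * exp (-(√2 / 2 * σ))) := by ring
            _ ≤ exp (√2 / 2 * s3) * ((1 + σ) ^ 2 * exp (-(√2 / 2 * σ))) := by
              have : 1 ≤ (1 + σ) ^ 2 := one_le_pow₀ (by linarith)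
              gcongr
        have h4 : E2 * 1 ≤ E2 * (exp (√2 / 2 * s3) * wt σ) := by gcongr
        have h5 : 0 ≤ E1 * wt σ := by positivity
        linarith
      exact h2.trans h1
    · have hσa' := not_lt.1 hσa
      have h1 := h.far_piece ha hC1 hq hqM hM hσ hσa'
      have h1' : -(E1 * wt σ) ≤ kw H K c z (-(σ + a)) * G a ψ (-(σ + a)) := by
        refine le_trans (le_of_eq ?_) h1
        rw [hE1]; unfold farc; ring
      have h2 : (Icc (a + 1) (a + 2)).indicator (fun _ => mm) σ ≤ φ σ := by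
        by_cases hin : σ ∈ Icc (a + 1) (a + 2)
        · rw [Set.indicator_of_mem hin]
          exact h.main_piece ha hc1 hq hq2 hin.1 hin.2
        · rw [Set.indicator_of_notMem hin]
          exact mul_nonneg (h.kw_nonneg hq _) (h.pos_piece ha hσa')
      have h3 : 0 ≤ E2 * exp (√2 / 2 * s3) * wt σ := by positivity
      simp only [hL]
      linarith
  have hint : ∫ σ in Ioi (0 : ℝ), L σ ≤ ∫ σ in Ioi (0 : ℝ), (φ σ + φ (-σ)) :=
    setIntegral_mono_on hLi (hφi.integrableOn.add hφi.comp_neg.integrableOn)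
      measurableSet_Ioi hpt
  have hLint : mm - (E1 + E2 * exp (√2 / 2 * s3)) * M1 ≤ ∫ σ in Ioi (0 : ℝ), L σ := by
    have i1 : Integrable ((Icc (a + 1) (a + 2)).indicator (fun _ => mm))
        (volume.restrict (Ioi (0 : ℝ))) := by
      refine IntegrableOn.integrable_indicator ?_ measurableSet_Icc
      refine (integrableOn_const (by
        refine ne_of_lt (lt_of_le_of_lt (Measure.restrict_apply_le _ _) ?_)
        simp)).mono_set le_rfl
    have i2 : Integrable (fun σ => (E1 + E2 * exp (√2 / 2 * s3)) * wt σ)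
        (volume.restrict (Ioi (0 : ℝ))) := integrable_wt.integrableOn.const_mul _
    have e4 : ∫ σ in Ioi (0 : ℝ), L σ =
        (∫ σ in Ioi (0 : ℝ), (Icc (a + 1) (a + 2)).indicator (fun _ => mm) σ) -
          ∫ σ in Ioi (0 : ℝ), (E1 + E2 * exp (√2 / 2 * s3)) * wt σ := integral_sub i1 i2
    have e5 : ∫ σ in Ioi (0 : ℝ), (Icc (a + 1) (a + 2)).indicator (fun _ => mm) σ = mm := by
      rw [integral_indicator measurableSet_Icc, Measure.restrict_restrict measurableSet_Icc]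
      have : Icc (a + 1) (a + 2) ∩ Ioi (0 : ℝ) = Icc (a + 1) (a + 2) := by
        ext x; simp only [mem_inter_iff, mem_Icc, mem_Ioi]; constructor
        · exact fun h => h.1
        · intro h; exact ⟨h, by linarith [h.1]⟩
      rw [this]
      simp [Measure.real]
      ring
    have e6 : ∫ σ in Ioi (0 : ℝ), (E1 + E2 * exp (√2 / 2 * s3)) * wt σ ≤
        (E1 + E2 * exp (√2 / 2 * s3)) * M1 := by
      rw [integral_const_mul]
      have : ∫ σ in Ioi (0 : ℝ), wt σ ≤ M1 :=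
        setIntegral_le_integral integrable_wt (Filter.Eventually.of_forall fun t => (wt_pos t).le)
      have h0 : 0 ≤ E1 + E2 * exp (√2 / 2 * s3) := by positivity
      exact mul_le_mul_of_nonneg_left this h0
    rw [e4, e5]; linarith
  rw [e1, e2]
  linarith

theorem gain_all (h : Ray s3 c1 C1 Cz a H K q κ τ T ψ c c' z z') (hc1 : 0 ≤ c1)
    (hC1 : 0 ≤ C1) {M : ℝ} (hM : 0 ≤ M) (hq : C1 * (q * (1 + T) ^ 2) ≤ 1 / 2)
    (hq2 : C1 * q * 2 * (1 + 2) ^ 2 * exp (2 * √2 * 2) ≤ 1 / 2)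
    (hqM : C1 * q * (1 + M) ^ 2 * exp (2 * √2 * M) ≤ 1) :
    mc s3 c1 * q * (c 0 - 2 * κ) - (farc s3 C1 * exp (-(√2 / 2 * M)) * q +
      (3 / 2) * ((3 * κ * s3 + C1 * q * (2 * s3 + 4 * s3 ^ 2)) * 2 * (C1 * q * Y0 s3) +
        9 * (C1 * q * Y0 s3) ^ 2) * exp (√2 / 2 * s3)) * M1 ≤
      ∫ t, kw H K c z t * G a ψ t := by
  rcases le_total 0 a with ha | ha
  · exact h.gain_pos ha hc1 hC1 hM hq hq2 hqM
  · have h1 := h.reflect.gain_pos (by linarith) hc1 hC1 hM hq hq2 hqM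
    simp only [neg_zero] at h1
    refine h1.trans (le_of_eq ?_)
    rw [← integral_neg_eq_self (fun t => kw H K c z t * G a ψ t)]
    refine integral_congr_ae (Filter.Eventually.of_forall fun t => ?_)
    have e1 : J (-H) K t = J H K (-t) := by simp only [J]; ring
    have e2 : -a + t = -(a + -t) := by ring
    simp only [kw, G, e1, e2, F_neg, g1_neg]

/-! ### the bound of `mid` -/

/-- `B` with `g1 (a+t)^2 ≤ B exp (-2√2|t|)` -/
noncomputable def Bc (s3 : ℝ) : ℝ := 9 * exp (2 * √2 * s3)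

theorem g1_shift_sq_le (h : Ray s3 c1 C1 Cz a H K q κ τ T ψ c c' z z') (t : ℝ) :
    g1 (a + t) ^ 2 ≤ Bc s3 * exp (-(2 * √2 * |t|)) := by
  have h1 := g1_le_exp (a + t)
  have h2 := (g1_pos (a + t)).le
  have h3 : g1 (a + t) ^ 2 ≤ (3 * exp (-(√2 * |a + t|))) ^ 2 := pow_le_pow_left₀ h2 h1 2
  have h4 : exp (-(√2 * |a + t|)) ^ 2 = exp (-(2 * √2 * |a + t|)) := by
    rw [← Real.exp_nat_mul]; congr 1; push_cast; ring
  have h5 : exp (-(2 * √2 * |a + t|)) ≤ exp (2 * √2 * s3) * exp (-(2 * √2 * |t|)) := by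
    rw [← Real.exp_add]
    apply Real.exp_le_exp.2
    have : |t| ≤ |a + t| + |a| := by
      have := abs_sub_abs_le_abs_sub t (-a)
      rw [abs_neg] at this
      have e : t - -a = a + t := by ring
      rw [e] at this; linarith
    have h6 : |t| ≤ |a + t| + s3 := this.trans (by linarith [h.a_le])
    have hr := r_pos
    have : 2 * √2 * |t| ≤ 2 * √2 * (|a + t| + s3) := by gcongr
    linarith
  calc g1 (a + t) ^ 2 ≤ _ := h3
    _ = 9 * exp (-(2 * √2 * |a + t|)) := by rw [mul_pow, h4]; norm_num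
    _ ≤ 9 * (exp (2 * √2 * s3) * exp (-(2 * √2 * |t|))) := by gcongr
    _ = _ := by unfold Bc; ring

/-- indicator of the tails -/
noncomputable def tl (τ t : ℝ) : ℝ := if τ ≤ |t| then 1 else 0

theorem tl_nonneg (τ t : ℝ) : 0 ≤ tl τ t := by unfold tl; split_ifs <;> norm_num

theorem shift_wt1 (h : Ray s3 c1 C1 Cz a H K q κ τ T ψ c c' z z') (t : ℝ) :
    (1 + |t|) * g1 (a + t) ^ 2 ≤ Bc s3 * wt t := by
  have hr := r_pos
  have hB : 0 ≤ Bc s3 := by unfold Bc; positivity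
  have ht0 := abs_nonneg t
  have hh := h.g1_shift_sq_le t
  have hexp1 : exp (-(2 * √2 * |t|)) ≤ exp (-(√2 / 2 * |t|)) := by
    apply Real.exp_le_exp.2
    have : √2 / 2 * |t| ≤ 2 * √2 * |t| := by gcongr; linarith
    linarith
  have hsq : 1 + |t| ≤ (1 + |t|) ^ 2 := by nlinarith
  calc (1 + |t|) * g1 (a + t) ^ 2 ≤ (1 + |t|) ^ 2 * (Bc s3 * exp (-(√2 / 2 * |t|))) := by
        gcongr; exact hh.trans (by gcongr)
    _ = _ := by unfold wt; ring

theorem shift_wt2 (h : Ray s3 c1 C1 Cz a H K q κ τ T ψ c c' z z') (t : ℝ) :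
    tl τ t * ((1 + |t|) * g1 (a + t) ^ 2) ≤ Bc s3 * exp (-(√2 * τ)) * wt t := by
  have hr := r_pos
  have hB : 0 ≤ Bc s3 := by unfold Bc; positivity
  have ht0 := abs_nonneg t
  have hw := wt_pos t
  have hh := h.g1_shift_sq_le t
  unfold tl
  split_ifs with hc
  · rw [one_mul]
    have : exp (-(2 * √2 * |t|)) ≤ exp (-(√2 * τ)) * exp (-(√2 / 2 * |t|)) := by
      rw [← Real.exp_add]
      apply Real.exp_le_exp.2
      have h1 : √2 * τ ≤ √2 * |t| := by gcongr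
      have h2 : √2 / 2 * |t| ≤ √2 * |t| := by gcongr; linarith
      linarith
    have hsq : 1 + |t| ≤ (1 + |t|) ^ 2 := by nlinarith
    calc (1 + |t|) * g1 (a + t) ^ 2
        ≤ (1 + |t|) ^ 2 * (Bc s3 * (exp (-(√2 * τ)) * exp (-(√2 / 2 * |t|)))) := by
          gcongr; exact hh.trans (by gcongr)
      _ = _ := by unfold wt; ring
  · rw [zero_mul]; positivity

theorem cz_sub_le (h : Ray s3 c1 C1 Cz a H K q κ τ T ψ c c' z z') (t : ℝ) :
    |c t * z t ^ 2 - c 0| ≤ κ * |t| + tl τ t := by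
  have hκ := h.κ_nonneg
  have e : c t * z t ^ 2 - c 0 = (c t - c 0) * z t ^ 2 + c 0 * (z t ^ 2 - 1) := by ring
  rw [e]
  refine (abs_add_le _ _).trans ?_
  rw [abs_mul, abs_mul]
  have h1 : |c t - c 0| ≤ κ * |t| := by simpa using h.c_lip t 0
  have h2 : |z t ^ 2| ≤ 1 := by
    rw [abs_of_nonneg (sq_nonneg _)]; exact pow_le_one₀ (h.z_nonneg t) (h.z_le t)
  have h3 : |c 0| ≤ 1 := by rw [abs_of_nonneg (h.c_nonneg 0)]; exact h.c_le 0
  have h4 : |z t ^ 2 - 1| ≤ tl τ t := by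
    unfold tl
    split_ifs with hc
    · rw [abs_of_nonneg (sq_nonneg _)] at h2
      rw [abs_le]; constructor
      · have := sq_nonneg (z t); linarith
      · linarith
    · rw [h.z_one t (not_le.1 hc).le]; simp
  have h5 := tl_nonneg τ t
  calc |c t - c 0| * |z t ^ 2| + |c 0| * |z t ^ 2 - 1| ≤ κ * |t| * 1 + 1 * tl τ t := by gcongr
    _ = _ := by ring

theorem z'_abs_le (h : Ray s3 c1 C1 Cz a H K q κ τ T ψ c c' z z') (t : ℝ) :
    |z' t| ≤ Cz * tl τ t := by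
  unfold tl
  split_ifs with hc
  · simpa using h.z'_le t
  · rw [h.z'_zero_in (not_le.1 hc)]; simp

theorem HK_le (h : Ray s3 c1 C1 Cz a H K q κ τ T ψ c c' z z') (t : ℝ) :
    |H + 2 * t * K| ≤ C1 * q * (1 + 2 * |t|) := by
  refine (abs_add_le _ _).trans ?_
  rw [abs_mul, abs_mul, abs_of_pos (by norm_num : (0 : ℝ) < 2)]
  have := h.H_le
  have := h.K_le
  calc |H| + 2 * |t| * |K| ≤ C1 * q + 2 * |t| * (C1 * q) := by gcongr
    _ = _ := by ring

theorem mid1 (h : Ray s3 c1 C1 Cz a H K q κ τ T ψ c c' z z') (t : ℝ) :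
    K * (c t * z t ^ 2) * g1 (a + t) ^ 2 ≤ K * c 0 * g1 (a + t) ^ 2 +
      (C1 * q * κ * (Bc s3 * wt t) + C1 * q * (Bc s3 * exp (-(√2 * τ)) * wt t)) := by
  have hκ := h.κ_nonneg
  have hCq : 0 ≤ C1 * q := (abs_nonneg _).trans h.H_le
  have hh0 : 0 ≤ g1 (a + t) ^ 2 := sq_nonneg _
  have hw1 := h.shift_wt1 t
  have hw2 := h.shift_wt2 t
  have ht0 := abs_nonneg t
  have h5 := tl_nonneg τ t
  have e1 : K * (c t * z t ^ 2 - c 0) ≤ C1 * q * (κ * |t| + tl τ t) := by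
    refine (le_abs_self _).trans ?_
    rw [abs_mul]
    have := h.K_le
    have := h.cz_sub_le t
    gcongr
  have e2 : K * (c t * z t ^ 2 - c 0) * g1 (a + t) ^ 2 ≤
      C1 * q * (κ * |t| + tl τ t) * g1 (a + t) ^ 2 := by gcongr
  have b1 : |t| * g1 (a + t) ^ 2 ≤ Bc s3 * wt t := by
    refine le_trans ?_ hw1
    gcongr; linarith
  have b2 : tl τ t * g1 (a + t) ^ 2 ≤ Bc s3 * exp (-(√2 * τ)) * wt t := by
    refine le_trans ?_ hw2
    have : g1 (a + t) ^ 2 ≤ (1 + |t|) * g1 (a + t) ^ 2 := by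
      have : 1 * g1 (a + t) ^ 2 ≤ (1 + |t|) * g1 (a + t) ^ 2 := by gcongr; linarith
      linarith
    gcongr
  have e3 : C1 * q * (κ * |t| + tl τ t) * g1 (a + t) ^ 2 ≤
      C1 * q * κ * (Bc s3 * wt t) + C1 * q * (Bc s3 * exp (-(√2 * τ)) * wt t) := by
    calc C1 * q * (κ * |t| + tl τ t) * g1 (a + t) ^ 2 =
          C1 * q * κ * (|t| * g1 (a + t) ^ 2) + C1 * q * (tl τ t * g1 (a + t) ^ 2) := by ring
      _ ≤ _ := by gcongr
  linarith

theorem mid2 (h : Ray s3 c1 C1 Cz a H K q κ τ T ψ c c' z z') (t : ℝ) :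
    g1 (a + t) ^ 2 / 2 * ((H + 2 * t * K) * (c' t * z t ^ 2 + 2 * c t * z t * z' t)) ≤
      C1 * q * κ * (Bc s3 * wt t) + 2 * Cz * (C1 * q) * (Bc s3 * exp (-(√2 * τ)) * wt t) := by
  have hκ := h.κ_nonneg
  have hCq : 0 ≤ C1 * q := (abs_nonneg _).trans h.H_le
  have hh0 : 0 ≤ g1 (a + t) ^ 2 := sq_nonneg _
  have hw1 := h.shift_wt1 t
  have hw2 := h.shift_wt2 t
  have ht0 := abs_nonneg t
  have hl := tl_nonneg τ t
  have hCz := h.Cz_nonneg
  have h1 : |c' t * z t ^ 2 + 2 * c t * z t * z' t| ≤ κ + 2 * Cz * tl τ t := by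
    refine (abs_add_le _ _).trans ?_
    have h3 : |c' t * z t ^ 2| ≤ κ * 1 := by
      rw [abs_mul]
      have h2 : |z t ^ 2| ≤ 1 := by
        rw [abs_of_nonneg (sq_nonneg _)]; exact pow_le_one₀ (h.z_nonneg t) (h.z_le t)
      have := h.c'_le t
      gcongr
    have h4 : |2 * c t * z t * z' t| ≤ 2 * 1 * 1 * (Cz * tl τ t) := by
      rw [abs_mul, abs_mul, abs_mul, abs_of_pos (by norm_num : (0 : ℝ) < 2),
        abs_of_nonneg (h.c_nonneg t), abs_of_nonneg (h.z_nonneg t)]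
      have := h.c_le t
      have := h.z_le t
      have := h.c_nonneg t
      have := h.z_nonneg t
      have := h.z'_abs_le t
      gcongr
    linarith
  have h5 : (H + 2 * t * K) * (c' t * z t ^ 2 + 2 * c t * z t * z' t) ≤
      C1 * q * (1 + 2 * |t|) * (κ + 2 * Cz * tl τ t) := by
    refine (le_abs_self _).trans ?_
    rw [abs_mul]
    have := h.HK_le t
    gcongr
  have b1 : (1 + 2 * |t|) / 2 * g1 (a + t) ^ 2 ≤ (1 + |t|) * g1 (a + t) ^ 2 := by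
    gcongr; linarith
  have b2 : tl τ t * ((1 + 2 * |t|) / 2 * g1 (a + t) ^ 2) ≤
      Bc s3 * exp (-(√2 * τ)) * wt t := by
    refine le_trans ?_ hw2
    gcongr
  have b3 : (1 + 2 * |t|) / 2 * g1 (a + t) ^ 2 ≤ Bc s3 * wt t := b1.trans hw1
  calc g1 (a + t) ^ 2 / 2 * ((H + 2 * t * K) * (c' t * z t ^ 2 + 2 * c t * z t * z' t))
      ≤ g1 (a + t) ^ 2 / 2 * (C1 * q * (1 + 2 * |t|) * (κ + 2 * Cz * tl τ t)) := by gcongr
    _ = C1 * q * κ * ((1 + 2 * |t|) / 2 * g1 (a + t) ^ 2) +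
          2 * Cz * (C1 * q) * (tl τ t * ((1 + 2 * |t|) / 2 * g1 (a + t) ^ 2)) := by ring
    _ ≤ _ := by gcongr

theorem mid3 (h : Ray s3 c1 C1 Cz a H K q κ τ T ψ c c' z z')
    (hq : C1 * (q * (1 + T) ^ 2) ≤ 1 / 2) (t : ℝ) :
    c t * J H K t * g1 (a + t) ^ 2 * z' t ^ 2 ≤
      3 / 2 * Cz ^ 2 * Bc s3 * (if τ ≤ |t| then exp (-(2 * √2 * |t|)) else 0) := by
  have hB : 0 ≤ Bc s3 := by unfold Bc; positivity
  have hh := h.g1_shift_sq_le t
  have hCz := h.Cz_nonneg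
  by_cases hTt : |t| ≤ T
  · have hJ := h.J_sub_one hTt hq
    have h1 : J H K t ≤ 3 / 2 := by have := (abs_le.1 hJ).2; linarith
    have h1' : 0 ≤ J H K t := by have := (abs_le.1 hJ).1; linarith
    by_cases hc : τ ≤ |t|
    · rw [if_pos hc]
      have h3 : z' t ^ 2 ≤ Cz ^ 2 := by
        rw [← sq_abs]; have := h.z'_le t; gcongr
      have := h.c_le t
      have := h.c_nonneg t
      calc c t * J H K t * g1 (a + t) ^ 2 * z' t ^ 2 ≤ 1 * (3 / 2) *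
            (Bc s3 * exp (-(2 * √2 * |t|))) * Cz ^ 2 := by gcongr
        _ = _ := by ring
    · rw [if_neg hc, h.z'_zero_in (not_le.1 hc)]; simp
  · rw [h.z'_zero_out (not_le.1 hTt)]
    simp only [ne_eq, OfNat.ofNat_ne_zero, not_false_eq_true, zero_pow, mul_zero]
    split_ifs <;> positivity

theorem mid4 (h : Ray s3 c1 C1 Cz a H K q κ τ T ψ c c' z z') {lam : ℝ}
    (hlam : 0 ≤ lam) (hq : C1 * (q * (1 + T) ^ 2) ≤ 1 / 2) (t : ℝ) :
    lam * (c t * J H K t * g1 (a + t) ^ 2 * z t ^ 2) ≤ 3 / 2 * Bc s3 * lam * wt t := by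
  have hh0 : 0 ≤ g1 (a + t) ^ 2 := sq_nonneg _
  have ht0 := abs_nonneg t
  have h1 : c t * J H K t * g1 (a + t) ^ 2 * z t ^ 2 = kw H K c z t * g1 (a + t) ^ 2 := by
    unfold kw; ring
  have h3 := h.kw_le hq t
  have h3' := h.kw_nonneg hq t
  have h4 : g1 (a + t) ^ 2 ≤ Bc s3 * wt t := by
    refine le_trans ?_ (h.shift_wt1 t)
    have : 1 * g1 (a + t) ^ 2 ≤ (1 + |t|) * g1 (a + t) ^ 2 := by gcongr; linarith
    linarith
  rw [h1]
  calc lam * (kw H K c z t * g1 (a + t) ^ 2) ≤ lam * (3 / 2 * (Bc s3 * wt t)) := by gcongr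
    _ = _ := by ring

theorem mid5 (h : Ray s3 c1 C1 Cz a H K q κ τ T ψ c c' z z')
    (hq : C1 * (q * (1 + T) ^ 2) ≤ 1 / 2) (t : ℝ) :
    J H K t * c' t * (g1 (a + t) ^ 2 * z t * z' t) ≤
      3 / 2 * Cz * Bc s3 * (if τ ≤ |t| then exp (-(2 * √2 * |t|)) else 0) := by
  have hB : 0 ≤ Bc s3 := by unfold Bc; positivity
  have hh := h.g1_shift_sq_le t
  have hCz := h.Cz_nonneg
  by_cases hTt : |t| ≤ T
  · have hJ := h.J_sub_one hTt hq
    have h1 : |J H K t| ≤ 3 / 2 := by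
      have := abs_le.1 hJ
      rw [abs_le]; constructor <;> linarith
    by_cases hc : τ ≤ |t|
    · rw [if_pos hc]
      refine (le_abs_self _).trans ?_
      have h2 : |c' t| ≤ 1 := (h.c'_le t).trans h.κ_le
      have h3 := h.z'_le t
      have h4 := h.z_le t
      have h5 := h.z_nonneg t
      rw [abs_mul, abs_mul, abs_mul, abs_mul, abs_of_nonneg (sq_nonneg (g1 (a + t))),
        abs_of_nonneg h5]
      calc |J H K t| * |c' t| * (g1 (a + t) ^ 2 * z t * |z' t|) ≤ (3 / 2) * 1 *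
            ((Bc s3 * exp (-(2 * √2 * |t|))) * 1 * Cz) := by gcongr
        _ = _ := by ring
    · rw [if_neg hc, h.z'_zero_in (not_le.1 hc)]; simp
  · rw [h.z'_zero_out (not_le.1 hTt)]
    simp only [mul_zero]
    split_ifs <;> positivity

theorem mid_le (h : Ray s3 c1 C1 Cz a H K q κ τ T ψ c c' z z') {lam : ℝ}
    (hlam : 0 ≤ lam) (hq : C1 * (q * (1 + T) ^ 2) ≤ 1 / 2) (t : ℝ) :
    mid a H K lam c c' z z' t ≤ K * c 0 * g1 (a + t) ^ 2 +
      (2 * C1 * Bc s3 * κ * q + (1 + 2 * Cz) * C1 * Bc s3 * q * exp (-(√2 * τ)) +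
        3 / 2 * Bc s3 * lam) * wt t +
      (3 / 2 * (Cz ^ 2 + Cz) * Bc s3) * (if τ ≤ |t| then exp (-(2 * √2 * |t|)) else 0) := by
  have t1 := h.mid1 t
  have t2 := h.mid2 t
  have t3 := h.mid3 hq t
  have t4 := h.mid4 hlam hq t
  have t5 := h.mid5 hq t
  unfold mid
  linarith

theorem integral_mid_le (h : Ray s3 c1 C1 Cz a H K q κ τ T ψ c c' z z') {lam : ℝ}
    (hlam : 0 ≤ lam) (hq : C1 * (q * (1 + T) ^ 2) ≤ 1 / 2) :
    ∫ t, mid a H K lam c c' z z' t ≤ 2 * √2 / 3 * K * c 0 +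
      (2 * C1 * Bc s3 * κ * q + (1 + 2 * Cz) * C1 * Bc s3 * q * exp (-(√2 * τ)) +
        3 / 2 * Bc s3 * lam) * M1 +
      (3 / 2 * (Cz ^ 2 + Cz) * Bc s3) * exp (-(2 * √2 * τ)) := by
  have hr := r_pos
  have hτ : 0 ≤ τ := by have := h.s3_nonneg; have := h.τ_ge; linarith
  have i1 : Integrable fun t => K * c 0 * g1 (a + t) ^ 2 := by
    refine Integrable.const_mul ?_ _
    exact integrable_g1_sq.comp_add_left a
  have hCz := h.Cz_nonneg
  set A := 2 * C1 * Bc s3 * κ * q + (1 + 2 * Cz) * C1 * Bc s3 * q * exp (-(√2 * τ)) +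
    3 / 2 * Bc s3 * lam with hA
  set A' := 3 / 2 * (Cz ^ 2 + Cz) * Bc s3 with hA'
  have i2 : Integrable fun t => A * wt t := integrable_wt.const_mul _
  have i3 : Integrable fun t : ℝ => A' *
      (if τ ≤ |t| then exp (-(2 * √2 * |t|)) else 0) := by
    refine Integrable.const_mul ?_ _
    refine (integrable_exp_abs (b := 2 * √2) (by positivity)).mono' ?_
      (Filter.Eventually.of_forall fun t => ?_)
    · refine Measurable.aestronglyMeasurable ?_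
      refine Measurable.ite ?_ (by fun_prop) measurable_const
      exact measurableSet_le measurable_const (by fun_prop)
    · split_ifs
      · simp [abs_of_pos (Real.exp_pos _)]
      · simp [(Real.exp_pos _).le]
  have hm := integral_mono (h.integrable_mid lam) ((i1.add i2).add i3)
    (fun t => h.mid_le hlam hq t)
  refine hm.trans ?_
  have e1 : ∫ t, (((fun t => K * c 0 * g1 (a + t) ^ 2) + fun t => A * wt t) + fun t : ℝ =>
      A' * (if τ ≤ |t| then exp (-(2 * √2 * |t|)) else 0)) t =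
      K * c 0 * (2 * √2 / 3) + A * M1 + A' * (2 / (2 * √2) * exp (-(2 * √2 * τ))) := by
    have i12 : Integrable ((fun t => K * c 0 * g1 (a + t) ^ 2) + fun t => A * wt t) := i1.add i2
    rw [integral_add' i12 i3, integral_add' i1 i2, integral_const_mul, integral_const_mul,
      integral_const_mul, integral_shift_g1_sq, integral_tail (by positivity) hτ]
    rfl
  rw [e1]
  have hB : 0 ≤ Bc s3 := by unfold Bc; positivity
  have e2 : (2 : ℝ) / (2 * √2) ≤ 1 := by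
    rw [div_le_one (by positivity)]; linarith [one_lt_r]
  have hA'0 : 0 ≤ A' := by rw [hA']; positivity
  have e3 : A' * (2 / (2 * √2) * exp (-(2 * √2 * τ))) ≤
      A' * (1 * exp (-(2 * √2 * τ))) := by gcongr
  linarith

/-! ### LI6 -/

/-- the constant `Ck` -/
noncomputable def Ckc (s3 C1 : ℝ) : ℝ := 9 * s3 * (C1 * Y0 s3) * exp (√2 / 2 * s3) * M1

noncomputable def Cqc (s3 C1 : ℝ) : ℝ :=
  (3 / 2) * (C1 * (2 * s3 + 4 * s3 ^ 2) * 2 * (C1 * Y0 s3) + 9 * (C1 * Y0 s3) ^ 2) *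
    exp (√2 / 2 * s3) * M1

noncomputable def C2c (s3 c1 C1 Cz : ℝ) : ℝ :=
  2 * mc s3 c1 + Ckc s3 C1 + (2 + 2 * Cz) * (C1 * Bc s3 * M1) + 3 / 2 * (Bc s3 * M1) +
    3 / 2 * (Cz ^ 2 + Cz) * Bc s3 + 1

theorem Y0_nonneg {s3 : ℝ} (hs3 : 0 ≤ s3) : 0 ≤ Y0 s3 := by unfold Y0; positivity

theorem Ckc_nonneg {s3 C1 : ℝ} (hs3 : 0 ≤ s3) (hC1 : 0 ≤ C1) : 0 ≤ Ckc s3 C1 := by
  have := Y0_nonneg hs3; have := M1_nonneg
  unfold Ckc; positivity

theorem Cqc_nonneg {s3 C1 : ℝ} (hs3 : 0 ≤ s3) (hC1 : 0 ≤ C1) : 0 ≤ Cqc s3 C1 := by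
  have := Y0_nonneg hs3; have := M1_nonneg
  unfold Cqc; positivity

theorem Bc_nonneg (s3 : ℝ) : 0 ≤ Bc s3 := by unfold Bc; positivity

/-- the gain error -/
theorem gain_err {s3 C1 M q κ ν : ℝ} (hq0 : 0 ≤ q)
    (hM : farc s3 C1 * exp (-(√2 / 2 * M)) * M1 ≤ ν / 2) (hqν : Cqc s3 C1 * q ≤ ν / 2) :
    (farc s3 C1 * exp (-(√2 / 2 * M)) * q +
      (3 / 2) * ((3 * κ * s3 + C1 * q * (2 * s3 + 4 * s3 ^ 2)) * 2 * (C1 * q * Y0 s3) +
        9 * (C1 * q * Y0 s3) ^ 2) * exp (√2 / 2 * s3)) * M1 ≤ (Ckc s3 C1 * κ + ν) * q := by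
  have e : (farc s3 C1 * exp (-(√2 / 2 * M)) * q +
      (3 / 2) * ((3 * κ * s3 + C1 * q * (2 * s3 + 4 * s3 ^ 2)) * 2 * (C1 * q * Y0 s3) +
        9 * (C1 * q * Y0 s3) ^ 2) * exp (√2 / 2 * s3)) * M1 =
        (farc s3 C1 * exp (-(√2 / 2 * M)) * M1) * q + Ckc s3 C1 * κ * q +
          (Cqc s3 C1 * q) * q := by
    unfold Ckc Cqc; ring
  rw [e]
  have h1 : (farc s3 C1 * exp (-(√2 / 2 * M)) * M1) * q ≤ ν / 2 * q := by gcongr
  have h2 : (Cqc s3 C1 * q) * q ≤ ν / 2 * q := by gcongr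
  linarith

/-- comparison of the constants -/
theorem const_cmp {s3 c1 C1 Cz q κ ν lam e1 e2 : ℝ} (hs3 : 0 ≤ s3) (hc1 : 0 < c1) (hC1 : 0 ≤ C1)
    (hCz : 0 ≤ Cz)
    (hq0 : 0 ≤ q) (hκ : 0 ≤ κ) (hν : 0 ≤ ν) (hlam : 0 ≤ lam) (he1 : 0 ≤ e1) (he2 : 0 ≤ e2) :
    (2 * C1 * Bc s3 * κ * q + (1 + 2 * Cz) * C1 * Bc s3 * q * e1 + 3 / 2 * Bc s3 * lam) * M1 +
      (3 / 2 * (Cz ^ 2 + Cz) * Bc s3) * e2 + mc s3 c1 * q * (2 * κ) + (Ckc s3 C1 * κ + ν) * q ≤
    C2c s3 c1 C1 Cz * (κ + e1 + ν) * q + C2c s3 c1 C1 Cz * e2 + C2c s3 c1 C1 Cz * lam := by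
  have hB := Bc_nonneg s3
  have hM1 := M1_nonneg
  have hmc := mc_pos (s3 := s3) hc1
  have hCk := Ckc_nonneg hs3 hC1
  have p1 : 0 ≤ C1 * Bc s3 * M1 := by positivity
  have p1' : 0 ≤ Cz * (C1 * Bc s3 * M1) := by positivity
  have p2 : 0 ≤ Bc s3 * M1 := by positivity
  have p3 : 0 ≤ (Cz ^ 2 + Cz) * Bc s3 := by positivity
  have q1 : (2 * mc s3 c1 + Ckc s3 C1 + 2 * (C1 * Bc s3 * M1)) * (κ * q) ≤
      C2c s3 c1 C1 Cz * (κ * q) := by
    gcongr; unfold C2c; linarith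
  have q2 : (1 + 2 * Cz) * (C1 * Bc s3 * M1) * (e1 * q) ≤ C2c s3 c1 C1 Cz * (e1 * q) := by
    gcongr; unfold C2c; linarith
  have q3 : 1 * (ν * q) ≤ C2c s3 c1 C1 Cz * (ν * q) := by
    gcongr; unfold C2c; linarith
  have k2 : (3 / 2 * (Cz ^ 2 + Cz) * Bc s3) * e2 ≤ C2c s3 c1 C1 Cz * e2 := by
    gcongr; unfold C2c; linarith
  have k3 : 3 / 2 * (Bc s3 * M1) * lam ≤ C2c s3 c1 C1 Cz * lam := by
    gcongr; unfold C2c; linarith
  linarith

/-- **LI6.** The ray integral at a good base point. -/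
theorem li6 (s3 c1 C1 Cz : ℝ) (hs3 : 0 ≤ s3) (hc1 : 0 < c1) (hC1 : 0 ≤ C1) (hCz : 0 ≤ Cz) :
    ∃ c2 > 0, ∃ C2 > 0, ∀ ν > 0, ∃ δ > 0,
      ∀ (a H K q κ τ T lam : ℝ) (ψ c c' z z' : ℝ → ℝ),
        Ray s3 c1 C1 Cz a H K q κ τ T ψ c c' z z' → 0 ≤ lam → q * (1 + T) ^ 2 ≤ δ →
        Integrable (lhs a H K lam ψ c c' z z') ∧
        ∫ t, lhs a H K lam ψ c c' z z' t ≤ 2 * √2 / 3 * K * c 0 - c2 * q * c 0 +
          C2 * (κ + exp (-(√2 * τ)) + ν) * q + C2 * exp (-(2 * √2 * τ)) + C2 * lam := by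
  have hr := r_pos
  have hB := Bc_nonneg s3
  have hM1 := M1_nonneg
  have hCk := Ckc_nonneg hs3 hC1
  have hCq0 := Cqc_nonneg hs3 hC1
  have hmc := mc_pos (s3 := s3) hc1
  have hC2' : 0 < C2c s3 c1 C1 Cz := by
    have : 0 ≤ (2 + 2 * Cz) * (C1 * Bc s3 * M1) := by positivity
    have : 0 ≤ 3 / 2 * (Bc s3 * M1) := by positivity
    have : 0 ≤ 3 / 2 * (Cz ^ 2 + Cz) * Bc s3 := by positivity
    unfold C2c; linarith
  refine ⟨mc s3 c1, hmc, C2c s3 c1 C1 Cz, hC2', fun ν hν => ?_⟩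
  -- choose M
  obtain ⟨M, hM0, hM⟩ : ∃ M : ℝ, 0 ≤ M ∧ farc s3 C1 * exp (-(√2 / 2 * M)) * M1 ≤ ν / 2 := by
    have h1 : Filter.Tendsto (fun M : ℝ => farc s3 C1 * exp (-(√2 / 2 * M)) * M1)
        Filter.atTop (nhds 0) := by
      have h2 : Filter.Tendsto (fun M : ℝ => √2 / 2 * M) Filter.atTop Filter.atTop :=
        Filter.tendsto_id.const_mul_atTop (by positivity)
      have h3 := (Real.tendsto_exp_neg_atTop_nhds_zero.comp h2)
      have h4 := (h3.const_mul (farc s3 C1)).mul_const M1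
      simpa [Function.comp_def] using h4
    have h5 := (h1.eventually (ge_mem_nhds (show (0 : ℝ) < ν / 2 by linarith))).and
      (Filter.eventually_ge_atTop 0)
    obtain ⟨M, hM⟩ := h5.exists
    exact ⟨M, hM.2, hM.1⟩
  -- choose δ
  obtain ⟨D, hD0, hD1, hD2, hD3, hD4⟩ : ∃ D : ℝ, 0 < D ∧ C1 * 2 ≤ D ∧
      C1 * 2 * (1 + 2) ^ 2 * exp (2 * √2 * 2) * 2 ≤ D ∧ C1 * (1 + M) ^ 2 * exp (2 * √2 * M) ≤ D ∧
      2 * Cqc s3 C1 / ν ≤ D := by
    have hD1 : 0 ≤ C1 * 2 := by positivity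
    have hD2 : 0 ≤ C1 * 2 * (1 + 2) ^ 2 * exp (2 * √2 * 2) * 2 := by positivity
    have hD3 : 0 ≤ C1 * (1 + M) ^ 2 * exp (2 * √2 * M) := by positivity
    have hD4 : 0 ≤ 2 * Cqc s3 C1 / ν := by positivity
    refine ⟨C1 * 2 + C1 * 2 * (1 + 2) ^ 2 * exp (2 * √2 * 2) * 2 +
      C1 * (1 + M) ^ 2 * exp (2 * √2 * M) + 2 * Cqc s3 C1 / ν + 1, ?_, ?_, ?_, ?_, ?_⟩ <;> linarith
  refine ⟨1 / D, by positivity, ?_⟩
  intro a H K q κ τ T lam ψ c c' z z' h hlam hqT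
  refine ⟨h.integrable_lhs lam, ?_⟩
  have hq0 := h.q_nonneg
  have hκ := h.κ_nonneg
  have hT0 := h.T_pos
  have hqD : q * (1 + T) ^ 2 * D ≤ 1 := by rwa [le_div_iff₀ hD0] at hqT
  have hqT0 : 0 ≤ q * (1 + T) ^ 2 := by positivity
  have hqle : q ≤ q * (1 + T) ^ 2 := by
    have : 1 ≤ (1 + T) ^ 2 := one_le_pow₀ (by linarith)
    have : q * 1 ≤ q * (1 + T) ^ 2 := by gcongr
    linarith
  have hqD' : q * D ≤ 1 := (mul_le_mul_of_nonneg_right hqle hD0.le).trans hqD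
  have hq : C1 * (q * (1 + T) ^ 2) ≤ 1 / 2 := by
    have : q * (1 + T) ^ 2 * (C1 * 2) ≤ q * (1 + T) ^ 2 * D := by gcongr
    linarith
  have hq2 : C1 * q * 2 * (1 + 2) ^ 2 * exp (2 * √2 * 2) ≤ 1 / 2 := by
    have : q * (C1 * 2 * (1 + 2) ^ 2 * exp (2 * √2 * 2) * 2) ≤ q * D := by gcongr
    linarith
  have hqM : C1 * q * (1 + M) ^ 2 * exp (2 * √2 * M) ≤ 1 := by
    have : q * (C1 * (1 + M) ^ 2 * exp (2 * √2 * M)) ≤ q * D := by gcongr
    linarith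
  have hqν : Cqc s3 C1 * q ≤ ν / 2 := by
    have h1 : q * (2 * Cqc s3 C1 / ν) ≤ q * D := by gcongr
    have h2 : q * (2 * Cqc s3 C1 / ν) ≤ 1 := h1.trans hqD'
    have h3 : q * (2 * Cqc s3 C1 / ν) * ν ≤ 1 * ν := by gcongr
    have h4 : q * (2 * Cqc s3 C1 / ν) * ν = 2 * (Cqc s3 C1 * q) := by field_simp
    linarith
  have hg := h.gain_all hc1.le hC1 hM0 hq hq2 hqM
  have hm := h.integral_mid_le hlam hq
  have hge := gain_err (κ := κ) hq0 hM hqν
  have hcmp := const_cmp hs3 hc1 hC1 hCz hq0 hκ hν.le hlam (exp_pos (-(√2 * τ))).le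
    (exp_pos (-(2 * √2 * τ))).le
  rw [h.integral_lhs lam]
  have hgk : ∫ t, c t * J H K t * z t ^ 2 * G a ψ t = ∫ t, kw H K c z t * G a ψ t := rfl
  rw [hgk]
  set I1 := ∫ t, mid a H K lam c c' z z' t
  set I2 := ∫ t, kw H K c z t * G a ψ t
  linarith

end Ray

end Vale.Agent.P134.H873
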