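import Mathlib

/-!
# P134 / H873 : the heteroclinic `g = tanh (x/√2)` and elementary bounds
-/

open MeasureTheory Set Real

namespace Vale.Agent.P134.H873

/-- the heteroclinic -/
noncomputable def g (x : ℝ) : ℝ := Real.tanh (x / √2)

/-- its derivative -/
noncomputable def g1 (x : ℝ) : ℝ := (1 - g x ^ 2) / √2

/-- its second derivative -/
noncomputable def g2 (x : ℝ) : ℝ := -(√2 * g x * g1 x)

theorem r_sq : √2 * √2 = 2 := Real.mul_self_sqrt (by norm_num)

theorem r_pos : 0 < √2 := Real.sqrt_pos.2 (by norm_num)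

theorem one_lt_r : 1 < √2 := by
  rw [Real.lt_sqrt (by norm_num)]; norm_num

theorem r_lt : √2 < 3 / 2 := by
  rw [Real.sqrt_lt' (by norm_num)]; norm_num

theorem hasDerivAt_tanh (x : ℝ) : HasDerivAt Real.tanh (1 - Real.tanh x ^ 2) x := by
  have h : HasDerivAt (fun y => Real.sinh y / Real.cosh y)
      ((Real.cosh x * Real.cosh x - Real.sinh x * Real.sinh x) / Real.cosh x ^ 2) x :=
    (Real.hasDerivAt_sinh x).div (Real.hasDerivAt_cosh x) (Real.cosh_pos x).ne'
  have e : (fun y => Real.sinh y / Real.cosh y) = Real.tanh := by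
    ext y; rw [Real.tanh_eq_sinh_div_cosh]
  rw [e] at h
  convert h using 1
  rw [Real.tanh_eq_sinh_div_cosh]
  field_simp [(Real.cosh_pos x).ne']

theorem hasDerivAt_g (x : ℝ) : HasDerivAt g (g1 x) x := by
  have h := (hasDerivAt_tanh (x / √2)).comp x ((hasDerivAt_id x).div_const √2)
  refine HasDerivAt.congr_deriv (f := g) h ?_
  simp only [g1, g]; ring

theorem hasDerivAt_g1 (x : ℝ) : HasDerivAt g1 (g2 x) x := by
  have h := (((hasDerivAt_g x).pow 2).const_sub 1).div_const √2
  refine HasDerivAt.congr_deriv (f := g1) h ?_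
  simp only [g2]
  have hr := r_sq
  have hr' := r_pos
  rw [div_eq_iff hr'.ne']
  push_cast
  linear_combination (g x * g1 x) * hr

theorem continuous_g : Continuous g := continuous_iff_continuousAt.2
  fun x => (hasDerivAt_g x).continuousAt

theorem continuous_g1 : Continuous g1 := continuous_iff_continuousAt.2
  fun x => (hasDerivAt_g1 x).continuousAt

theorem continuous_g2 : Continuous g2 := by
  unfold g2
  exact ((continuous_const.mul continuous_g).mul continuous_g1).neg

theorem g_neg (x : ℝ) : g (-x) = -g x := by simp [g, neg_div]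

theorem g1_neg (x : ℝ) : g1 (-x) = g1 x := by simp [g1, g_neg]

theorem g2_neg (x : ℝ) : g2 (-x) = -g2 x := by simp [g2, g_neg, g1_neg]

theorem g_zero : g 0 = 0 := by simp [g]

theorem g_lt_one (x : ℝ) : g x < 1 := Real.tanh_lt_one _

theorem neg_one_lt_g (x : ℝ) : -1 < g x := Real.neg_one_lt_tanh _

theorem abs_g_lt (x : ℝ) : |g x| < 1 := abs_lt.2 ⟨neg_one_lt_g x, g_lt_one x⟩

theorem g_sq_lt (x : ℝ) : g x ^ 2 < 1 := by
  have := abs_g_lt x
  rw [← sq_abs]; nlinarith [abs_nonneg (g x)]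

theorem g1_pos (x : ℝ) : 0 < g1 x := div_pos (by linarith [g_sq_lt x]) r_pos

theorem strictMono_g : StrictMono g := by
  refine strictMono_of_deriv_pos fun x => ?_
  rw [(hasDerivAt_g x).deriv]; exact g1_pos x

theorem g_nonneg {x : ℝ} (hx : 0 ≤ x) : 0 ≤ g x := by
  rw [← g_zero]; exact strictMono_g.monotone hx

theorem g_pos {x : ℝ} (hx : 0 < x) : 0 < g x := by
  rw [← g_zero]; exact strictMono_g hx

theorem one_sub_g_sq (x : ℝ) : 1 - g x ^ 2 = √2 * g1 x := by
  simp only [g1]; field_simp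

theorem g1_eq_cosh (x : ℝ) : g1 x = 1 / (√2 * Real.cosh (x / √2) ^ 2) := by
  have hc := (Real.cosh_pos (x / √2)).ne'
  have h := Real.cosh_sq_sub_sinh_sq (x / √2)
  simp only [g1, g]
  rw [Real.tanh_eq_sinh_div_cosh]
  have : (1 - (Real.sinh (x / √2) / Real.cosh (x / √2)) ^ 2) =
      1 / Real.cosh (x / √2) ^ 2 := by
    field_simp; linarith
  rw [this]
  field_simp

theorem g1_le_exp (x : ℝ) : g1 x ≤ 3 * Real.exp (-(√2 * |x|)) := by
  rw [g1_eq_cosh]
  have hr := r_pos
  have hrs := r_sq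
  have h1 : Real.exp (|x| / √2) / 2 ≤ Real.cosh (x / √2) := by
    rw [← Real.cosh_abs, abs_div, abs_of_pos hr, Real.cosh_eq]
    have := Real.exp_pos (-(|x| / √2))
    linarith
  have h2 : (Real.exp (|x| / √2) / 2) ^ 2 ≤ Real.cosh (x / √2) ^ 2 :=
    pow_le_pow_left₀ (by positivity) h1 2
  have h3 : (Real.exp (|x| / √2)) ^ 2 = Real.exp (√2 * |x|) := by
    rw [← Real.exp_nat_mul]; congr 1; push_cast
    rw [← mul_div_assoc, div_eq_iff hr.ne']
    linear_combination (-|x|) * hrs
  have h4 : Real.exp (√2 * |x|) / 4 ≤ Real.cosh (x / √2) ^ 2 := by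
    calc Real.exp (√2 * |x|) / 4 = (Real.exp (|x| / √2) / 2) ^ 2 := by rw [div_pow, h3]; norm_num
      _ ≤ _ := h2
  rw [Real.exp_neg, div_le_iff₀ (by positivity)]
  have he := Real.exp_pos (√2 * |x|)
  have : (3 : ℝ) * (Real.exp (√2 * |x|))⁻¹ * (√2 * (Real.exp (√2 * |x|) / 4)) = 3 * √2 / 4 := by
    field_simp
  calc (1 : ℝ) ≤ 3 * √2 / 4 := by
        have : (4 : ℝ) / 3 ≤ √2 := by
          rw [Real.le_sqrt (by norm_num) (by norm_num)]; norm_num
        linarith
    _ = _ := this.symm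
    _ ≤ _ := by gcongr

theorem g1_le_one (x : ℝ) : g1 x ≤ 1 := by
  have := one_sub_g_sq x
  have h1 := one_lt_r
  have h2 := g1_pos x
  nlinarith [sq_nonneg (g x)]

theorem g1_sq_le (x : ℝ) : g1 x ^ 2 ≤ 1 / 2 := by
  have h := one_sub_g_sq x
  have h2 := g1_pos x
  have h3 : √2 * g1 x ≤ 1 := by nlinarith [sq_nonneg (g x)]
  have h4 : (√2 * g1 x) ^ 2 ≤ 1 := by
    have : 0 ≤ √2 * g1 x := by positivity
    nlinarith
  have : (√2 * g1 x) ^ 2 = 2 * g1 x ^ 2 := by rw [mul_pow, Real.sq_sqrt (by norm_num)]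
  linarith

/-- `F = g²`, the relevant part of `W''(g) = 3 g² - 1` -/
noncomputable def F (x : ℝ) : ℝ := g x ^ 2

noncomputable def F1 (x : ℝ) : ℝ := 2 * g x * g1 x

theorem hasDerivAt_F (x : ℝ) : HasDerivAt F (F1 x) x := by
  have h := (hasDerivAt_g x).pow 2
  refine HasDerivAt.congr_deriv (f := F) h ?_
  simp only [F1]; push_cast; ring

theorem hasDerivAt_F1 (x : ℝ) : HasDerivAt F1 (2 * g1 x ^ 2 - 2 * √2 * g x ^ 2 * g1 x) x := by
  have h := ((hasDerivAt_g x).const_mul 2).mul (hasDerivAt_g1 x)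
  refine HasDerivAt.congr_deriv (f := F1) h ?_
  simp only [g2]; ring

theorem F_neg (x : ℝ) : F (-x) = F x := by simp [F, g_neg]

theorem F1_neg (x : ℝ) : F1 (-x) = -F1 x := by simp [F1, g_neg, g1_neg]

theorem F_nonneg (x : ℝ) : 0 ≤ F x := sq_nonneg _

theorem F_lt_one (x : ℝ) : F x < 1 := g_sq_lt x

theorem F1_nonneg {x : ℝ} (hx : 0 ≤ x) : 0 ≤ F1 x :=
  mul_nonneg (mul_nonneg (by norm_num) (g_nonneg hx)) (g1_pos x).le

theorem F1_le (x : ℝ) : F1 x ≤ 2 := by
  have h1 := g1_le_one x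
  have h2 := g1_pos x
  have h3 := g_lt_one x
  have h4 := neg_one_lt_g x
  unfold F1
  nlinarith

theorem F1_deriv_le (x : ℝ) : |2 * g1 x ^ 2 - 2 * √2 * g x ^ 2 * g1 x| ≤ 3 := by
  have h1 := g1_sq_le x
  have h2 := g1_pos x
  have h3 := g_sq_lt x
  have h4 := one_sub_g_sq x
  have h5 : √2 * g1 x ≤ 1 := by nlinarith [sq_nonneg (g x)]
  have h6 : 0 ≤ √2 * g1 x := by positivity
  rw [abs_le]
  constructor
  · nlinarith [mul_nonneg (sq_nonneg (g x)) h6]
  · nlinarith [mul_nonneg (sq_nonneg (g x)) h6]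

theorem F1_lip (x y : ℝ) : |F1 x - F1 y| ≤ 3 * |x - y| := by
  have := Convex.norm_image_sub_le_of_norm_hasDerivWithin_le (f := F1)
    (f' := fun x => 2 * g1 x ^ 2 - 2 * √2 * g x ^ 2 * g1 x) (C := 3) (s := univ) (x := y) (y := x)
    (fun x _ => (hasDerivAt_F1 x).hasDerivWithinAt) (fun x _ => F1_deriv_le x) convex_univ
    (mem_univ _) (mem_univ _)
  simpa [Real.norm_eq_abs] using this

theorem F_taylor (x y : ℝ) : |F (x + y) - F x - F1 x * y| ≤ 3 * y ^ 2 := by
  have h : ∀ s ∈ Icc (-|y|) |y|, HasDerivWithinAt (fun s => F (x + s) - F1 x * s)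
      (F1 (x + s) - F1 x) (Icc (-|y|) |y|) s := by
    intro s _
    have h1 : HasDerivAt (fun s => F (x + s)) (F1 (x + s)) s := by
      have := (hasDerivAt_F (x + s)).comp s ((hasDerivAt_id s).const_add x)
      exact this.congr_deriv (by simp)
    have h2 : HasDerivAt (fun s => F1 x * s) (F1 x) s := by
      simpa using (hasDerivAt_id s).const_mul (F1 x)
    exact (h1.sub h2).hasDerivWithinAt
  have hb : ∀ s ∈ Icc (-|y|) |y|, ‖F1 (x + s) - F1 x‖ ≤ 3 * |y| := by
    intro s hs
    have := F1_lip (x + s) x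
    rw [Real.norm_eq_abs]
    refine this.trans ?_
    have : |s| ≤ |y| := abs_le.2 hs
    simpa using this
  have h0 : (0 : ℝ) ∈ Icc (-|y|) |y| := by simp
  have hy : y ∈ Icc (-|y|) |y| := ⟨neg_abs_le y, le_abs_self y⟩
  have := Convex.norm_image_sub_le_of_norm_hasDerivWithin_le h hb (convex_Icc _ _) h0 hy
  simp only [add_zero, mul_zero, sub_zero, Real.norm_eq_abs] at this
  have e : F (x + y) - F1 x * y - F x = F (x + y) - F x - F1 x * y := by ring
  rw [e] at this
  refine this.trans (le_of_eq ?_)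
  rw [mul_assoc, ← sq, sq_abs]

theorem monotoneOn_F : MonotoneOn F (Ici 0) := by
  intro x hx y _ hxy
  simp only [F]
  exact pow_le_pow_left₀ (g_nonneg hx) (strictMono_g.monotone hxy) 2

/-- `F x ≤ F y` if `|x| ≤ y` -/
theorem F_le_of_abs_le {x y : ℝ} (h : |x| ≤ y) : F x ≤ F y := by
  have h1 : F |x| ≤ F y := monotoneOn_F (abs_nonneg x) ((abs_nonneg x).trans h) h
  have h2 : F |x| = F x := by
    rcases abs_choice x with h | h
    · rw [h]
    · rw [h, F_neg]
  rwa [h2] at h1

theorem antitoneOn_g1 : AntitoneOn g1 (Ici 0) := by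
  intro x hx y hy hxy
  have := monotoneOn_F hx hy hxy
  have h1 := one_sub_g_sq x
  have h2 := one_sub_g_sq y
  simp only [F] at this
  have hr := r_pos
  nlinarith

/-- lower bound for the increments of `F` on `[1/2, b]` -/
theorem F_growth {b x y : ℝ} (hx : 1 / 2 ≤ x) (hxy : x ≤ y) (hy : y ≤ b) :
    (2 * g (1 / 2) * g1 b) * (y - x) ≤ F y - F x := by
  have hb : (1 : ℝ) / 2 ≤ b := by linarith
  refine Convex.mul_sub_le_image_sub_of_le_deriv (D := Icc (1 / 2) b) (convex_Icc _ _)
    (fun z _ => (hasDerivAt_F z).continuousAt.continuousWithinAt)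
    (fun z _ => (hasDerivAt_F z).differentiableAt.differentiableWithinAt) ?_ x
    ⟨hx, by linarith⟩ y ⟨by linarith, hy⟩ hxy
  intro z hz
  rw [interior_Icc] at hz
  rw [(hasDerivAt_F z).deriv]
  have h1 : g (1 / 2) ≤ g z := strictMono_g.monotone hz.1.le
  have h2 : g1 b ≤ g1 z := antitoneOn_g1 (by simp; linarith [hz.1]) (by simp; linarith) hz.2.le
  have h3 : 0 ≤ g (1 / 2) := g_nonneg (by norm_num)
  have h4 := g1_pos b
  unfold F1
  have := mul_le_mul h1 h2 h4.le (h3.trans h1)
  linarith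

theorem tendsto_g_atTop : Filter.Tendsto g Filter.atTop (nhds 1) := by
  have h : ∀ x : ℝ, 0 ≤ x → 1 - 5 * Real.exp (-x) ≤ g x := by
    intro x hx
    have h1 := one_sub_g_sq x
    have h2 := g1_le_exp x
    have h3 := g_nonneg hx
    have h4 := g_lt_one x
    have h5 := g1_pos x
    rw [abs_of_nonneg hx] at h2
    have h6 : Real.exp (-(√2 * x)) ≤ Real.exp (-x) := by
      apply Real.exp_le_exp.2; nlinarith [one_lt_r]
    have h7 := r_lt
    have h8 : 1 - g x ≤ 1 - g x ^ 2 := by nlinarith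
    have h9 : √2 * g1 x ≤ (3 / 2) * (3 * Real.exp (-x)) := by
      have := r_pos
      have : g1 x ≤ 3 * Real.exp (-x) := h2.trans (by gcongr)
      exact mul_le_mul h7.le this h5.le (by norm_num)
    have := Real.exp_pos (-x)
    linarith
  have h1 : Filter.Tendsto (fun x : ℝ => 1 - 5 * Real.exp (-x)) Filter.atTop (nhds 1) := by
    have := (Real.tendsto_exp_neg_atTop_nhds_zero.const_mul 5).const_sub 1
    simpa using this
  refine tendsto_of_tendsto_of_tendsto_of_le_of_le' h1 tendsto_const_nhds ?_ ?_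
  · filter_upwards [Filter.eventually_ge_atTop 0] with x hx using h x hx
  · exact Filter.Eventually.of_forall fun x => (g_lt_one x).le

theorem tendsto_g_atBot : Filter.Tendsto g Filter.atBot (nhds (-1)) := by
  have h := (tendsto_g_atTop.comp Filter.tendsto_neg_atBot_atTop).neg
  refine h.congr fun x => ?_
  simp [g_neg]

theorem integrable_exp_abs {b : ℝ} (hb : 0 < b) :
    Integrable (fun t : ℝ => Real.exp (-(b * |t|))) := by
  have h1 : IntegrableOn (fun t : ℝ => Real.exp (-b * t)) (Ioi 0) :=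
    integrableOn_exp_mul_Ioi (by linarith) 0
  have h2 : IntegrableOn (fun t : ℝ => Real.exp (b * t)) (Iic 0) :=
    integrableOn_exp_mul_Iic hb 0
  rw [← integrableOn_univ, ← Iic_union_Ioi (a := (0 : ℝ))]
  refine IntegrableOn.union ?_ ?_
  · refine h2.congr_fun (fun t ht => ?_) measurableSet_Iic
    simp only [mem_Iic] at ht
    simp [abs_of_nonpos ht]
  · refine h1.congr_fun (fun t ht => ?_) measurableSet_Ioi
    simp only [mem_Ioi] at ht
    simp [abs_of_pos ht]

/-- the weight used in all error terms -/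
noncomputable def wt (t : ℝ) : ℝ := (1 + |t|) ^ 2 * Real.exp (-(√2 / 2 * |t|))

theorem wt_pos (t : ℝ) : 0 < wt t := by unfold wt; positivity

theorem continuous_wt : Continuous wt := by unfold wt; fun_prop

theorem integrable_wt : Integrable wt := by
  have h := (integrable_exp_abs (b := √2 / 4) (by have := r_pos; positivity)).const_mul 64
  refine h.mono' continuous_wt.aestronglyMeasurable (Filter.Eventually.of_forall fun t => ?_)
  rw [Real.norm_eq_abs, abs_of_pos (wt_pos t)]
  unfold wt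
  have h1 : 1 + |t| ≤ 8 * Real.exp (√2 / 8 * |t|) := by
    have := Real.add_one_le_exp (√2 / 8 * |t|)
    have h2 := one_lt_r
    have h3 := abs_nonneg t
    nlinarith
  have h4 : (1 + |t|) ^ 2 ≤ 64 * Real.exp (√2 / 4 * |t|) := by
    have h5 : (1 + |t|) ^ 2 ≤ (8 * Real.exp (√2 / 8 * |t|)) ^ 2 :=
      pow_le_pow_left₀ (by positivity) h1 2
    have h6 : Real.exp (√2 / 8 * |t|) ^ 2 = Real.exp (√2 / 4 * |t|) := by
      rw [← Real.exp_nat_mul]; congr 1; push_cast; ring
    rw [mul_pow, h6] at h5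
    linarith
  calc (1 + |t|) ^ 2 * Real.exp (-(√2 / 2 * |t|))
      ≤ (64 * Real.exp (√2 / 4 * |t|)) * Real.exp (-(√2 / 2 * |t|)) := by gcongr
    _ = 64 * Real.exp (-(√2 / 4 * |t|)) := by
      rw [mul_assoc, ← Real.exp_add]; congr 2; ring

theorem integrable_g1_sq : Integrable (fun t => g1 t ^ 2) := by
  have h := (integrable_exp_abs (b := √2) r_pos).const_mul 3
  refine h.mono' (continuous_g1.pow 2).aestronglyMeasurable
    (Filter.Eventually.of_forall fun t => ?_)
  rw [Real.norm_eq_abs, abs_of_nonneg (sq_nonneg _)]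
  have h1 := g1_le_exp t
  have h2 := g1_le_one t
  have h3 := g1_pos t
  nlinarith

/-- `σ₀ = ∫ g'² = 2√2/3` -/
theorem integral_g1_sq : ∫ t, g1 t ^ 2 = 2 * √2 / 3 := by
  have hd : ∀ x, HasDerivAt (fun x => (g x - g x ^ 3 / 3) / √2) (g1 x ^ 2) x := by
    intro x
    have h := ((hasDerivAt_g x).sub (((hasDerivAt_g x).pow 3).div_const 3)).div_const √2
    refine (h.congr_deriv ?_)
    simp only [g1]
    push_cast
    field_simp
  have h := integral_of_hasDerivAt_of_tendsto hd integrable_g1_sq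
    (m := (-1 - (-1) ^ 3 / 3) / √2) (n := (1 - 1 ^ 3 / 3) / √2) ?_ ?_
  · rw [h]
    have := r_sq
    have hr := r_pos
    field_simp
    nlinarith
  · exact ((tendsto_g_atBot.sub ((tendsto_g_atBot.pow 3).div_const 3)).div_const _)
  · exact ((tendsto_g_atTop.sub ((tendsto_g_atTop.pow 3).div_const 3)).div_const _)

theorem integral_shift_g1_sq (a : ℝ) : ∫ t, g1 (a + t) ^ 2 = 2 * √2 / 3 := by
  rw [← integral_g1_sq]
  exact integral_add_left_eq_self (fun t => g1 t ^ 2) a

/-- tails of the exponential -/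
theorem integral_tail {b τ : ℝ} (hb : 0 < b) (hτ : 0 ≤ τ) :
    ∫ t, (if τ ≤ |t| then Real.exp (-(b * |t|)) else 0) = 2 / b * Real.exp (-(b * τ)) := by
  have hI : Integrable (fun t : ℝ => if τ ≤ |t| then Real.exp (-(b * |t|)) else 0) := by
    refine (integrable_exp_abs hb).mono' ?_ (Filter.Eventually.of_forall fun t => ?_)
    · refine Measurable.aestronglyMeasurable ?_
      refine Measurable.ite ?_ (by fun_prop) measurable_const
      exact measurableSet_le measurable_const (by fun_prop)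
    · split_ifs
      · simp [abs_of_pos (Real.exp_pos _)]
      · simp [(Real.exp_pos _).le]
  have h1 : ∫ t in Ioi (0 : ℝ), (if τ ≤ |t| then Real.exp (-(b * |t|)) else 0) =
      1 / b * Real.exp (-(b * τ)) := by
    have e : ∫ t in Ioi (0 : ℝ), (if τ ≤ |t| then Real.exp (-(b * |t|)) else 0) =
        ∫ t in Ioi (0 : ℝ), (Ici τ).indicator (fun t => Real.exp (-b * t)) t := by
      refine setIntegral_congr_fun measurableSet_Ioi fun t ht => ?_
      simp only [mem_Ioi] at ht
      simp [abs_of_pos ht, Set.indicator]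
    rw [e, integral_indicator measurableSet_Ici, Measure.restrict_restrict measurableSet_Ici]
    have e2 : (Ici τ ∩ Ioi 0 : Set ℝ) =ᵐ[volume] Ioi τ := by
      have : (Ioi τ : Set ℝ) = Ioi τ ∩ Ioi 0 := by
        ext x; simp; intro h; linarith
      rw [this]
      exact (Ioi_ae_eq_Ici.symm).inter (Filter.EventuallyEq.refl _ _)
    rw [Measure.restrict_congr_set e2, integral_exp_mul_Ioi (by linarith) τ]
    rw [neg_mul, neg_div_neg_eq, one_div, inv_mul_eq_div]
  have h2 : ∫ t in Iic (0 : ℝ), (if τ ≤ |t| then Real.exp (-(b * |t|)) else 0) =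
      1 / b * Real.exp (-(b * τ)) := by
    have := integral_comp_neg_Ioi (c := (0 : ℝ))
      (f := fun t : ℝ => if τ ≤ |t| then Real.exp (-(b * |t|)) else 0)
    rw [neg_zero] at this
    rw [← this, ← h1]
    simp
  rw [← intervalIntegral.integral_Iic_add_Ioi hI.integrableOn hI.integrableOn (b := 0), h1, h2]
  ring

end Vale.Agent.P134.H873
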