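import Vale.Agent.P134.H873.Ray

/-!
# P134 / H873 : the gain X4 (one-dimensional)
-/

open MeasureTheory Set Real

namespace Vale.Agent.P134.H873

namespace Ray

variable {s3 c1 C1 Cz a H K q κ τ T : ℝ} {ψ c c' z z' : ℝ → ℝ}

/-- the weight of the gain -/
noncomputable def kw (H K : ℝ) (c z : ℝ → ℝ) (t : ℝ) : ℝ := c t * J H K t * z t ^ 2

theorem far_exp {C1 q M a σ s3 : ℝ} (hC1q : 0 ≤ C1 * q) (ha : 0 ≤ a) (has3 : a ≤ s3)
    (hσ : 0 < σ) (hMlt : M < σ + a)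
    (hbig : 1 < C1 * q * (1 + (σ + a)) ^ 2 * exp (2 * √2 * (σ + a))) :
    exp (-(3 * √2 * (σ + a))) ≤ C1 * q * exp (-(√2 / 2 * M)) * (1 + s3) ^ 2 * wt σ := by
  have hr := r_pos
  have e1 : exp (-(3 * √2 * (σ + a))) = exp (-(2 * √2 * (σ + a))) *
      exp (-(√2 / 2 * (σ + a))) * exp (-(√2 / 2 * (σ + a))) := by
    rw [← Real.exp_add, ← Real.exp_add]; congr 1; ring
  have e2 : exp (-(2 * √2 * (σ + a))) ≤ C1 * q * (1 + (σ + a)) ^ 2 := by
    have h1 : exp (-(2 * √2 * (σ + a))) * 1 ≤ exp (-(2 * √2 * (σ + a))) *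
        (C1 * q * (1 + (σ + a)) ^ 2 * exp (2 * √2 * (σ + a))) := by gcongr
    calc exp (-(2 * √2 * (σ + a))) = exp (-(2 * √2 * (σ + a))) * 1 := (mul_one _).symm
      _ ≤ _ := h1
      _ = C1 * q * (1 + (σ + a)) ^ 2 * (exp (-(2 * √2 * (σ + a))) * exp (2 * √2 * (σ + a))) := by
        ring
      _ = C1 * q * (1 + (σ + a)) ^ 2 := by rw [← Real.exp_add]; simp
  have e3 : exp (-(√2 / 2 * (σ + a))) ≤ exp (-(√2 / 2 * M)) := by
    apply Real.exp_le_exp.2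
    have : √2 / 2 * M ≤ √2 / 2 * (σ + a) := by gcongr
    linarith
  have e4 : exp (-(√2 / 2 * (σ + a))) ≤ exp (-(√2 / 2 * σ)) := by
    apply Real.exp_le_exp.2
    have : √2 / 2 * σ ≤ √2 / 2 * (σ + a) := by gcongr; linarith
    linarith
  have e5 : (1 + (σ + a)) ^ 2 ≤ (1 + s3) ^ 2 * (1 + σ) ^ 2 := by
    have h5 : 1 + (σ + a) ≤ (1 + s3) * (1 + σ) := by nlinarith
    calc (1 + (σ + a)) ^ 2 ≤ ((1 + s3) * (1 + σ)) ^ 2 :=
          pow_le_pow_left₀ (by linarith) h5 2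
      _ = _ := by ring
  have e6 : exp (-(2 * √2 * (σ + a))) ≤ C1 * q * ((1 + s3) ^ 2 * (1 + σ) ^ 2) :=
    e2.trans (by gcongr)
  rw [e1]
  calc exp (-(2 * √2 * (σ + a))) * exp (-(√2 / 2 * (σ + a))) * exp (-(√2 / 2 * (σ + a)))
      ≤ (C1 * q * ((1 + s3) ^ 2 * (1 + σ) ^ 2)) * exp (-(√2 / 2 * M)) *
          exp (-(√2 / 2 * σ)) := by gcongr
    _ = C1 * q * exp (-(√2 / 2 * M)) * (1 + s3) ^ 2 * wt σ := by
        unfold wt; rw [abs_of_pos hσ]; ring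

theorem far_fin {X e3 eM w s3 k Gd g3 eσ : ℝ} (hX : 0 ≤ X) (hs3 : 0 ≤ s3) (hw : 0 ≤ w)
    (hk0 : 0 ≤ k) (hk1 : k ≤ 3 / 2) (hG : -(3 * (3 / 2) * g3) ≤ Gd)
    (hg : g3 ≤ 27 * exp e3 * eσ)
    (hexp : eσ ≤ X * exp eM * (1 + s3) ^ 2 * w) :
    -((3 / 2) * (3 * (3 / 2) * 27 * exp e3 * X * exp eM * (1 + s3) ^ 2) * w) ≤ k * Gd := by
  set B := 3 * (3 / 2) * (27 * exp e3 * (X * exp eM * (1 + s3) ^ 2 * w)) with hB
  have hB0 : 0 ≤ B := by rw [hB]; positivity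
  have h0 : -B ≤ Gd := by
    refine le_trans ?_ hG
    have : g3 ≤ 27 * exp e3 * (X * exp eM * (1 + s3) ^ 2 * w) := hg.trans (by gcongr)
    linarith
  have h1 : k * (-B) ≤ k * Gd := mul_le_mul_of_nonneg_left h0 hk0
  have h2 : -((3 / 2) * B) ≤ k * (-B) := by
    have := mul_le_mul_of_nonneg_right hk1 hB0
    linarith
  calc _ = -((3 / 2) * B) := by rw [hB]; ring
    _ ≤ _ := h2
    _ ≤ _ := h1

theorem near_alg {k k' F1s y y' Y A1 g2s Fs Fp Fp' : ℝ} (hk0 : 0 ≤ k) (hk1 : k ≤ 3 / 2)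
    (hk0' : 0 ≤ k') (hk1' : k' ≤ 3 / 2) (hdiff : |k' - k| ≤ A1) (hy0 : 0 ≤ y) (hyy' : y ≤ y')
    (hy'Y : y' ≤ Y) (hF0 : 0 ≤ F1s) (hF3 : F1s ≤ 2) (hT1 : Fp - Fs ≤ F1s * y + 3 * y ^ 2)
    (hT2 : Fp' - Fs ≤ -F1s * y' + 3 * y' ^ 2) (hg0 : 0 ≤ g2s) (hg : g2s ≤ 1 / 2) :
    -((3 / 2) * (A1 * 2 * Y + 9 * Y ^ 2)) ≤
      k * (3 * (Fs - Fp) * g2s) + k' * (3 * (Fs - Fp') * g2s) := by
  have hy'0 : 0 ≤ y' := hy0.trans hyy'
  have hY0 : 0 ≤ Y := hy'0.trans hy'Y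
  have hyY : y ≤ Y := hyy'.trans hy'Y
  have hA1 : 0 ≤ A1 := (abs_nonneg _).trans hdiff
  have m1 : k * (Fp - Fs) ≤ k * (F1s * y + 3 * y ^ 2) := mul_le_mul_of_nonneg_left hT1 hk0
  have m2 : k' * (Fp' - Fs) ≤ k' * (-F1s * y' + 3 * y' ^ 2) :=
    mul_le_mul_of_nonneg_left hT2 hk0'
  have m3 : k' * (F1s * y) ≤ k' * (F1s * y') := by gcongr
  have m4 : -(A1 * (2 * Y)) ≤ (k' - k) * (F1s * y) := by
    have : |(k' - k) * (F1s * y)| ≤ A1 * (2 * Y) := by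
      rw [abs_mul, abs_of_nonneg (mul_nonneg hF0 hy0)]
      gcongr
    exact (abs_le.1 this).1
  have m5 : k * (3 * y ^ 2) ≤ 3 / 2 * (3 * Y ^ 2) := by gcongr
  have m6 : k' * (3 * y' ^ 2) ≤ 3 / 2 * (3 * Y ^ 2) := by gcongr
  have main : -(A1 * 2 * Y + 9 * Y ^ 2) ≤ k * (Fs - Fp) + k' * (Fs - Fp') := by linarith
  have hA0 : 0 ≤ A1 * 2 * Y + 9 * Y ^ 2 := by positivity
  have e : k * (3 * (Fs - Fp) * g2s) + k' * (3 * (Fs - Fp') * g2s) =
      3 * g2s * (k * (Fs - Fp) + k' * (Fs - Fp')) := by ring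
  rw [e]
  have h1 : 3 * g2s * (-(A1 * 2 * Y + 9 * Y ^ 2)) ≤
      3 * g2s * (k * (Fs - Fp) + k' * (Fs - Fp')) :=
    mul_le_mul_of_nonneg_left main (by positivity)
  have h2 : 3 * g2s * (A1 * 2 * Y + 9 * Y ^ 2) ≤ 3 / 2 * (A1 * 2 * Y + 9 * Y ^ 2) :=
    mul_le_mul_of_nonneg_right (by linarith) hA0
  linarith

section pointwise

variable (h : Ray s3 c1 C1 Cz a H K q κ τ T ψ c c' z z')
include h

theorem kw_nonneg (hq : C1 * (q * (1 + T) ^ 2) ≤ 1 / 2) (t : ℝ) : 0 ≤ kw H K c z t := by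
  by_cases ht : |t| ≤ T
  · have hJ := h.J_sub_one ht hq
    have h1 : 0 ≤ J H K t := by have := (abs_le.1 hJ).1; linarith
    exact mul_nonneg (mul_nonneg (h.c_nonneg t) h1) (sq_nonneg _)
  · simp [kw, h.z_zero t (not_le.1 ht).le]

theorem kw_le (hq : C1 * (q * (1 + T) ^ 2) ≤ 1 / 2) (t : ℝ) : kw H K c z t ≤ 3 / 2 := by
  by_cases ht : |t| ≤ T
  · have hJ := h.J_sub_one ht hq
    have h1 : J H K t ≤ 3 / 2 := by have := (abs_le.1 hJ).2; linarith
    have h1' : 0 ≤ J H K t := by have := (abs_le.1 hJ).1; linarith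
    have h2 : z t ^ 2 ≤ 1 := pow_le_one₀ (h.z_nonneg t) (h.z_le t)
    have h3 : c t * J H K t ≤ 1 * (3 / 2) := by
      have := h.c_le t; have := h.c_nonneg t; gcongr
    have h4 : 0 ≤ c t * J H K t := mul_nonneg (h.c_nonneg t) h1'
    unfold kw
    calc c t * J H K t * z t ^ 2 ≤ (1 * (3 / 2)) * 1 := by gcongr
      _ = 3 / 2 := by ring
  · have : kw H K c z t = 0 := by simp [kw, h.z_zero t (not_le.1 ht).le]
    rw [this]; norm_num

/-- far piece: `t' = -(σ + a)`, `σ ≥ a ≥ 0`. -/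
theorem far_piece (ha : 0 ≤ a) (hC1 : 0 ≤ C1) {M : ℝ}
    (hq : C1 * (q * (1 + T) ^ 2) ≤ 1 / 2)
    (hqM : C1 * q * (1 + M) ^ 2 * exp (2 * √2 * M) ≤ 1) (hM : 0 ≤ M) {σ : ℝ} (hσ : 0 < σ)
    (haσ : a ≤ σ) :
    -((3 / 2) * (3 * (3 / 2) * 27 * exp (3 * √2 * s3) * (C1 * q) * exp (-(√2 / 2 * M)) *
      (1 + s3) ^ 2) * wt σ) ≤ kw H K c z (-(σ + a)) * G a ψ (-(σ + a)) := by
  have hs3 := h.s3_nonneg
  have hr := r_pos
  have hq0 := h.q_nonneg
  have hk0 := h.kw_nonneg hq (-(σ + a))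
  have hk1 := h.kw_le hq (-(σ + a))
  have hwt := wt_pos σ
  have hneg : -((3 / 2) * (3 * (3 / 2) * 27 * exp (3 * √2 * s3) * (C1 * q) *
      exp (-(√2 / 2 * M)) * (1 + s3) ^ 2) * wt σ) ≤ 0 := by
    have : 0 ≤ (3 / 2 : ℝ) * (3 * (3 / 2) * 27 * exp (3 * √2 * s3) * (C1 * q) *
      exp (-(√2 / 2 * M)) * (1 + s3) ^ 2) * wt σ := by positivity
    linarith
  by_cases hT : T ≤ σ + a
  · have hz0 := h.z_zero (-(σ + a)) (by rw [abs_neg, abs_of_nonneg (by linarith)]; exact hT)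
    have : kw H K c z (-(σ + a)) = 0 := by
      unfold kw; rw [hz0]; ring
    rw [this, zero_mul]; exact hneg
  have hT' : |(-(σ + a))| ≤ T := by rw [abs_neg, abs_of_nonneg (by linarith)]; linarith
  have hG : G a ψ (-(σ + a)) = 3 * (F σ - F (ψ (-(σ + a)))) * g1 σ ^ 2 := by
    have e : a + -(σ + a) = -σ := by ring
    simp only [G, e, F_neg, g1_neg]
  set t' := -(σ + a) with ht'
  have habs : |t'| = σ + a := by rw [ht', abs_neg, abs_of_nonneg (by linarith)]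
  by_cases hψ : |ψ t'| ≤ σ
  · have := F_le_of_abs_le hψ
    have h1 : 0 ≤ G a ψ t' := by
      rw [hG]; exact mul_nonneg (mul_nonneg (by norm_num) (by linarith)) (sq_nonneg _)
    exact hneg.trans (mul_nonneg hk0 h1)
  -- now the deviation is large
  have hlow : -σ ≤ ψ t' := by
    have := (abs_le.1 (h.ψ_lip t' 0)).1
    rw [h.ψ_zero, sub_zero, habs] at this
    linarith
  have hup : σ < ψ t' := by
    by_contra hc
    exact hψ (abs_le.2 ⟨hlow, not_lt.1 hc⟩)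
  have hdev := h.dev_le t' hT'
  have hdev2 : σ + a < |a + t' - ψ t'| := by
    rw [abs_sub_comm, ht']
    have : ψ (-(σ + a)) - (a + -(σ + a)) = ψ (-(σ + a)) + σ := by ring
    rw [this, ← ht']
    have := le_abs_self (ψ t' + σ)
    linarith
  rw [habs] at hdev
  have hpos : 0 < σ + a := by linarith
  have hbig : 1 < C1 * q * (1 + (σ + a)) ^ 2 * exp (2 * √2 * (σ + a)) := by
    have h1 : (σ + a) * 1 < (σ + a) * (C1 * q * (1 + (σ + a)) ^ 2 * exp (2 * √2 * (σ + a))) := by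
      calc (σ + a) * 1 = σ + a := mul_one _
        _ < _ := hdev2
        _ ≤ _ := hdev
        _ = _ := by ring
    exact lt_of_mul_lt_mul_left h1 hpos.le
  have hMlt : M < σ + a := by
    by_contra hc
    have hc' := not_lt.1 hc
    have : C1 * q * (1 + (σ + a)) ^ 2 * exp (2 * √2 * (σ + a)) ≤
        C1 * q * (1 + M) ^ 2 * exp (2 * √2 * M) := by gcongr
    linarith
  -- bound of the gain density
  have hGlow : -(3 * (3 / 2) * g1 σ ^ 3) ≤ G a ψ t' := by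
    rw [hG]
    have h1 := F_lt_one (ψ t')
    have h2 := one_sub_g_sq σ
    have h3 := g1_pos σ
    have h4 : -(√2 * g1 σ) ≤ F σ - F (ψ t') := by
      have : F σ = g σ ^ 2 := rfl
      linarith
    have h5 : 3 * (-(√2 * g1 σ)) * g1 σ ^ 2 ≤ 3 * (F σ - F (ψ t')) * g1 σ ^ 2 := by gcongr
    have h6 : √2 * g1 σ ≤ 3 / 2 * g1 σ := by have := r_lt; gcongr
    have h7 : 0 ≤ g1 σ ^ 2 := sq_nonneg _
    nlinarith
  have hg1 : g1 σ ^ 3 ≤ 27 * exp (3 * √2 * s3) * exp (-(3 * √2 * (σ + a))) := by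
    have h1 := g1_le_exp σ
    rw [abs_of_pos hσ] at h1
    have h2 := (g1_pos σ).le
    have h3 : g1 σ ^ 3 ≤ (3 * exp (-(√2 * σ))) ^ 3 := pow_le_pow_left₀ h2 h1 3
    have h4' : exp (-(√2 * σ)) ^ 3 = exp (-(3 * √2 * σ)) := by
      rw [← Real.exp_nat_mul]; congr 1; push_cast; ring
    have h4 : (3 * exp (-(√2 * σ))) ^ 3 = 27 * exp (-(3 * √2 * σ)) := by
      rw [mul_pow, h4']; norm_num
    have h5 : exp (-(3 * √2 * σ)) ≤ exp (3 * √2 * s3) * exp (-(3 * √2 * (σ + a))) := by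
      rw [← Real.exp_add]
      apply Real.exp_le_exp.2
      have : a ≤ s3 := (le_abs_self a).trans h.a_le
      have : 3 * √2 * a ≤ 3 * √2 * s3 := by gcongr
      linarith
    calc g1 σ ^ 3 ≤ _ := h3
      _ = _ := h4
      _ ≤ 27 * (exp (3 * √2 * s3) * exp (-(3 * √2 * (σ + a)))) := by gcongr
      _ = _ := by ring
  have hexp := far_exp (mul_nonneg hC1 hq0) ha ((le_abs_self a).trans h.a_le) hσ hMlt hbig
  exact far_fin (mul_nonneg hC1 hq0) hs3 hwt.le hk0 hk1 hGlow hg1 hexp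

/-- near piece: the paired points `σ - a` and `-(σ + a)` for `0 < σ < a`. -/
theorem near_piece (ha : 0 ≤ a) (hC1 : 0 ≤ C1)
    (hq : C1 * (q * (1 + T) ^ 2) ≤ 1 / 2) {σ : ℝ} (hσ : 0 < σ) (haσ : σ < a) {Y : ℝ}
    (hY : C1 * q * (2 * s3) * (1 + 2 * s3) ^ 2 * exp (2 * √2 * (2 * s3)) ≤ Y) :
    -((3 / 2) * ((3 * κ * s3 + C1 * q * (2 * s3 + 4 * s3 ^ 2)) * 2 * Y + 9 * Y ^ 2)) ≤
      kw H K c z (σ - a) * G a ψ (σ - a) + kw H K c z (-(σ + a)) * G a ψ (-(σ + a)) := by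
  have hs3 := h.s3_nonneg
  have hr := r_pos
  have hq0 := h.q_nonneg
  have has3 : a ≤ s3 := (le_abs_self a).trans h.a_le
  have hκ := h.κ_nonneg
  have hT1 : 2 * s3 + 2 ≤ τ := h.τ_ge
  have hT2 := h.τ_le
  have hCq : 0 ≤ C1 * q := mul_nonneg hC1 hq0
  set t := σ - a with ht
  set t' := -(σ + a) with ht'
  have habs : |t| = a - σ := by rw [ht, abs_sub_comm, abs_of_pos (by linarith)]
  have habs' : |t'| = σ + a := by rw [ht', abs_neg, abs_of_nonneg (by linarith)]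
  have hG : G a ψ t = 3 * (F σ - F (ψ t)) * g1 σ ^ 2 := by
    have e : a + t = σ := by rw [ht]; ring
    simp only [G, e]
  have hG' : G a ψ t' = 3 * (F σ - F (ψ t')) * g1 σ ^ 2 := by
    have e : a + t' = -σ := by rw [ht']; ring
    simp only [G, e, F_neg, g1_neg]
  -- deviations
  set y := ψ t - σ with hy
  set y' := ψ t' + σ with hy'
  have hy0 : 0 ≤ y := by
    have := (abs_le.1 (h.ψ_lip t 0)).1
    rw [h.ψ_zero, sub_zero, habs] at this
    rw [hy]; linarith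
  have hyy' : y ≤ y' := by
    have := (abs_le.1 (h.ψ_lip t' t)).1
    have e : |t' - t| = 2 * σ := by
      rw [ht, ht', abs_of_neg (by linarith)]; ring
    rw [e] at this
    rw [hy, hy']; linarith
  have hy'Y : y' ≤ Y := by
    have h1 := h.dev_le t' (by rw [habs']; linarith)
    rw [habs'] at h1
    have h2 : y' ≤ |a + t' - ψ t'| := by
      rw [abs_sub_comm]
      have : ψ t' - (a + t') = y' := by rw [hy', ht']; ring
      rw [this]; exact le_abs_self _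
    have h3 : C1 * q * (σ + a) * (1 + (σ + a)) ^ 2 * exp (2 * √2 * (σ + a)) ≤
        C1 * q * (2 * s3) * (1 + 2 * s3) ^ 2 * exp (2 * √2 * (2 * s3)) := by
      have : σ + a ≤ 2 * s3 := by linarith
      gcongr
    linarith
  have hz : z t = 1 := h.z_one t (by rw [habs]; linarith)
  have hz' : z t' = 1 := h.z_one t' (by rw [habs']; linarith)
  have hJ := h.J_sub_one (t := t) (by rw [habs]; linarith) hq
  have hJ' := h.J_sub_one (t := t') (by rw [habs']; linarith) hq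
  have hk : kw H K c z t = c t * J H K t := by simp [kw, hz]
  have hk' : kw H K c z t' = c t' * J H K t' := by simp [kw, hz']
  have hk0 := h.kw_nonneg hq t
  have hk1 := h.kw_le hq t
  have hk0' := h.kw_nonneg hq t'
  have hk1' := h.kw_le hq t'
  set k := kw H K c z t with hkd
  set k' := kw H K c z t' with hkd'
  have hdiff : |k' - k| ≤ 3 * κ * s3 + C1 * q * (2 * s3 + 4 * s3 ^ 2) := by
    have e : k' - k = (c t' - c t) * J H K t' + c t * (J H K t' - J H K t) := by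
      rw [hk, hk']; ring
    have h1 : |c t' - c t| ≤ κ * (2 * s3) := by
      refine (h.c_lip t' t).trans ?_
      have : |t' - t| ≤ 2 * s3 := by
        rw [ht, ht', abs_of_neg (by linarith)]; linarith
      gcongr
    have h2 : |J H K t'| ≤ 3 / 2 := by
      have := abs_le.1 hJ'
      rw [abs_le]; constructor <;> linarith
    have h3 : |J H K t' - J H K t| ≤ C1 * q * (2 * s3 + 4 * s3 ^ 2) := by
      have e2 : J H K t' - J H K t = (-(2 * σ)) * H + (4 * a * σ) * K := by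
        simp only [J, ht, ht']; ring
      rw [e2]
      refine (abs_add_le _ _).trans ?_
      rw [abs_mul, abs_mul, abs_neg, abs_of_pos (by linarith : 0 < 2 * σ),
        abs_of_nonneg (by positivity : (0:ℝ) ≤ 4 * a * σ)]
      have h4 : 2 * σ * |H| ≤ 2 * s3 * (C1 * q) := by
        have := h.H_le
        have : σ ≤ s3 := by linarith
        gcongr
      have h5 : 4 * a * σ * |K| ≤ 4 * s3 * s3 * (C1 * q) := by
        have := h.K_le
        have : σ ≤ s3 := by linarith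
        gcongr
      calc _ ≤ 2 * s3 * (C1 * q) + 4 * s3 * s3 * (C1 * q) := by gcongr
        _ = _ := by ring
    rw [e]
    refine (abs_add_le _ _).trans ?_
    rw [abs_mul, abs_mul]
    have h6 : |c t| ≤ 1 := by rw [abs_of_nonneg (h.c_nonneg t)]; exact h.c_le t
    calc |c t' - c t| * |J H K t'| + |c t| * |J H K t' - J H K t|
        ≤ κ * (2 * s3) * (3 / 2) + 1 * (C1 * q * (2 * s3 + 4 * s3 ^ 2)) := by gcongr
      _ = _ := by ring
  -- Taylor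
  have hF1 : F (ψ t) - F σ ≤ F1 σ * y + 3 * y ^ 2 := by
    have := (abs_le.1 (F_taylor σ y)).2
    have e : σ + y = ψ t := by rw [hy]; ring
    rw [e] at this; linarith
  have hF2 : F (ψ t') - F σ ≤ -(F1 σ) * y' + 3 * y' ^ 2 := by
    have := (abs_le.1 (F_taylor (-σ) y')).2
    have e : -σ + y' = ψ t' := by rw [hy']; ring
    rw [e, F_neg, F1_neg] at this; linarith
  rw [hG, hG']
  exact near_alg hk0 hk1 hk0' hk1' hdiff hy0 hyy' hy'Y (F1_nonneg hσ.le) (F1_le σ)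
    hF1 hF2 (sq_nonneg _) (g1_sq_le σ)

/-- positive side: `t = σ - a ≥ 0`. -/
theorem pos_piece (ha : 0 ≤ a) {σ : ℝ} (haσ : a ≤ σ) : 0 ≤ G a ψ (σ - a) := by
  have hG : G a ψ (σ - a) = 3 * (F σ - F (ψ (σ - a))) * g1 σ ^ 2 := by
    have e : a + (σ - a) = σ := by ring
    simp only [G, e]
  have h1 := abs_le.1 (h.ψ_lip (σ - a) 0)
  rw [h.ψ_zero, sub_zero, abs_of_nonneg (by linarith : 0 ≤ σ - a)] at h1
  have h2 : |ψ (σ - a)| ≤ σ := abs_le.2 ⟨by linarith, by linarith⟩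
  have := F_le_of_abs_le h2
  rw [hG]
  exact mul_nonneg (mul_nonneg (by norm_num) (by linarith)) (sq_nonneg _)

/-- the main gain, on `[a+1, a+2]` -/
theorem main_piece (ha : 0 ≤ a) (hc1 : 0 ≤ c1)
    (hq : C1 * (q * (1 + T) ^ 2) ≤ 1 / 2) (hq2 : C1 * q * 2 * (1 + 2) ^ 2 * exp (2 * √2 * 2) ≤ 1 / 2)
    {σ : ℝ} (h1 : a + 1 ≤ σ) (h2 : σ ≤ a + 2) :
    (1 / 2) * (3 * (2 * g (1 / 2) * g1 (s3 + 2) * c1) * g1 (s3 + 2) ^ 2) * q * (c 0 - 2 * κ) ≤
      kw H K c z (σ - a) * G a ψ (σ - a) := by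
  have hs3 := h.s3_nonneg
  have hq0 := h.q_nonneg
  have has3 : a ≤ s3 := (le_abs_self a).trans h.a_le
  have hT1 : 2 * s3 + 2 ≤ τ := h.τ_ge
  have hT2 := h.τ_le
  have hκ := h.κ_nonneg
  set t := σ - a with ht
  have ht1 : 1 ≤ t := by rw [ht]; linarith
  have ht2 : t ≤ 2 := by rw [ht]; linarith
  have habs : |t| = t := abs_of_pos (by linarith)
  have hG : G a ψ t = 3 * (F σ - F (ψ t)) * g1 σ ^ 2 := by
    have e : a + t = σ := by rw [ht]; ring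
    simp only [G, e]
  have hlip := abs_le.1 (h.ψ_lip t 0)
  rw [h.ψ_zero, sub_zero, habs] at hlip
  have hdev := h.dev_ge t (by rw [habs]; exact ht1) (by rw [habs]; exact ht2)
  have hdev2 := h.dev_le t (by rw [habs]; linarith)
  have e0 : a + t - ψ t = σ - ψ t := by rw [ht]; ring
  have hnn : 0 ≤ σ - ψ t := by rw [ht] at hlip ⊢; linarith [hlip.2]
  rw [e0, abs_of_nonneg hnn] at hdev hdev2
  rw [habs] at hdev2
  have hsmall : σ - ψ t ≤ 1 / 2 := by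
    have hC1q : 0 ≤ C1 * q := (abs_nonneg _).trans h.H_le
    have : C1 * q * t * (1 + t) ^ 2 * exp (2 * √2 * t) ≤
        C1 * q * 2 * (1 + 2) ^ 2 * exp (2 * √2 * 2) := by
      have := r_pos
      gcongr
    linarith
  have hF := F_growth (b := s3 + 2) (x := ψ t) (y := σ) (by linarith) (by linarith) (by linarith)
  have hg1 : g1 (s3 + 2) ≤ g1 σ := antitoneOn_g1 (by simp; linarith) (by simp; linarith)
    (by linarith)
  have hgp := g1_pos (s3 + 2)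
  have hgh : 0 < g (1 / 2) := g_pos (by norm_num)
  have hGlow : 3 * (2 * g (1 / 2) * g1 (s3 + 2) * c1) * g1 (s3 + 2) ^ 2 * q ≤ G a ψ t := by
    rw [hG]
    have h3 : (2 * g (1 / 2) * g1 (s3 + 2)) * (c1 * q) ≤ F σ - F (ψ t) := by
      refine le_trans ?_ hF
      gcongr
    have h4 : 0 ≤ (2 * g (1 / 2) * g1 (s3 + 2)) * (c1 * q) := by positivity
    have h5 : 0 ≤ 3 * (F σ - F (ψ t)) := by linarith
    calc 3 * (2 * g (1 / 2) * g1 (s3 + 2) * c1) * g1 (s3 + 2) ^ 2 * q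
        = 3 * ((2 * g (1 / 2) * g1 (s3 + 2)) * (c1 * q)) * g1 (s3 + 2) ^ 2 := by ring
      _ ≤ 3 * (F σ - F (ψ t)) * g1 σ ^ 2 := by gcongr
  have hz : z t = 1 := h.z_one t (by rw [habs]; linarith)
  have hJ := h.J_sub_one (t := t) (by rw [habs]; linarith) hq
  have hk : kw H K c z t = c t * J H K t := by simp [kw, hz]
  have hJ2 : 1 / 2 ≤ J H K t := by have := (abs_le.1 hJ).1; linarith
  have hc : c 0 - 2 * κ ≤ c t := by
    have := (abs_le.1 (h.c_lip t 0)).1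
    rw [sub_zero, habs] at this
    nlinarith
  have hk2 : c t * (1 / 2) ≤ kw H K c z t := by
    rw [hk]; have := h.c_nonneg t; gcongr
  set m := 3 * (2 * g (1 / 2) * g1 (s3 + 2) * c1) * g1 (s3 + 2) ^ 2 with hm
  have hm0 : 0 ≤ m := by rw [hm]; positivity
  have hc0 := h.c_nonneg t
  calc (1 / 2) * m * q * (c 0 - 2 * κ) ≤ (1 / 2) * m * q * c t := by gcongr
    _ = c t * (1 / 2) * (m * q) := by ring
    _ ≤ kw H K c z t * (m * q) := by gcongr
    _ ≤ kw H K c z t * G a ψ t := by gcongr; exact h.kw_nonneg hq t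

end pointwise

end Ray

end Vale.Agent.P134.H873
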