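import Vale.Agent.P134.H873.Het

/-!
# P134 / H873 : LI6, the ray integral at a good base point (one-dimensional)
-/

open MeasureTheory Set Real

namespace Vale.Agent.P134.H873

/-- the Jacobian of the normal tube -/
def J (H K t : ℝ) : ℝ := 1 + t * H + t ^ 2 * K

/-- The data of LI6 at one base point `x` (all functions of the ray parameter `t`):
`a = φ(x)`, `ψ t = φ(x + t n)`, `c t = χ(x + t n)`, `z` = cut-off of the tube. -/
structure Ray (s3 c1 C1 Cz a H K q κ τ T : ℝ) (ψ c c' z z' : ℝ → ℝ) : Prop where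
  a_le : |a| ≤ s3
  q_nonneg : 0 ≤ q
  H_le : |H| ≤ C1 * q
  K_le : |K| ≤ C1 * q
  ψ_zero : ψ 0 = a
  ψ_lip : ∀ t t', |ψ t - ψ t'| ≤ |t - t'|
  dev_le : ∀ t, |t| ≤ T → |a + t - ψ t| ≤ C1 * q * |t| * (1 + |t|) ^ 2 * exp (2 * √2 * |t|)
  dev_ge : ∀ t, 1 ≤ |t| → |t| ≤ 2 → c1 * q ≤ |a + t - ψ t|
  c_deriv : ∀ t, HasDerivAt c (c' t) t
  c'_cont : Continuous c'
  c_nonneg : ∀ t, 0 ≤ c t
  c_le : ∀ t, c t ≤ 1
  c'_le : ∀ t, |c' t| ≤ κ
  κ_le : κ ≤ 1
  z_deriv : ∀ t, HasDerivAt z (z' t) t
  z'_cont : Continuous z'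
  z_nonneg : ∀ t, 0 ≤ z t
  z_le : ∀ t, z t ≤ 1
  z_one : ∀ t, |t| ≤ τ → z t = 1
  z_zero : ∀ t, T ≤ |t| → z t = 0
  z'_le : ∀ t, |z' t| ≤ Cz
  τ_ge : 2 * s3 + 2 ≤ τ
  τ_le : τ ≤ T

namespace Ray

variable {s3 c1 C1 Cz a H K q κ τ T : ℝ} {ψ c c' z z' : ℝ → ℝ}

/-- Constructor from derivative bounds. -/
theorem of_deriv {p : ℝ → ℝ} (a_le : |a| ≤ s3) (q_nonneg : 0 ≤ q) (H_le : |H| ≤ C1 * q)
    (K_le : |K| ≤ C1 * q) (ψ_zero : ψ 0 = a) (hψ : ∀ t, HasDerivAt ψ (p t) t)
    (hp : ∀ t, |p t| ≤ 1)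
    (hp1 : ∀ t, 1 - p t ≤ C1 * q * (1 + |t|) ^ 2 * exp (2 * √2 * |t|))
    (hp2 : ∀ t, |t| ≤ 2 → c1 * q ≤ 1 - p t) (hc1 : 0 ≤ c1)
    (c_deriv : ∀ t, HasDerivAt c (c' t) t) (c'_cont : Continuous c') (c_nonneg : ∀ t, 0 ≤ c t)
    (c_le : ∀ t, c t ≤ 1) (c'_le : ∀ t, |c' t| ≤ κ) (κ_le : κ ≤ 1)
    (z_deriv : ∀ t, HasDerivAt z (z' t) t) (z'_cont : Continuous z') (z_nonneg : ∀ t, 0 ≤ z t)
    (z_le : ∀ t, z t ≤ 1) (z_one : ∀ t, |t| ≤ τ → z t = 1) (z_zero : ∀ t, T ≤ |t| → z t = 0)
    (z'_le : ∀ t, |z' t| ≤ Cz) (τ_ge : 2 * s3 + 2 ≤ τ) (τ_le : τ ≤ T) :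
    Ray s3 c1 C1 Cz a H K q κ τ T ψ c c' z z' := by
  have hC1q : 0 ≤ C1 * q := (abs_nonneg _).trans H_le
  have hr := r_pos
  have hy : ∀ t, HasDerivAt (fun t => a + t - ψ t) (1 - p t) t := fun t => by
    have := ((hasDerivAt_id t).const_add a).sub (hψ t)
    exact this
  have hy0 : a + 0 - ψ 0 = 0 := by rw [ψ_zero]; ring
  have hmono : Monotone (fun t => a + t - ψ t) := by
    refine monotone_of_deriv_nonneg (fun t => (hy t).differentiableAt) fun t => ?_
    rw [(hy t).deriv]; have := (abs_le.1 (hp t)).2; linarith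
  have hmono2 : ∀ x y, |x| ≤ 2 → |y| ≤ 2 → x ≤ y →
      c1 * q * (y - x) ≤ (a + y - ψ y) - (a + x - ψ x) := by
    intro x y hx hy2 hxy
    refine Convex.mul_sub_le_image_sub_of_le_deriv (D := Icc (-2) 2) (convex_Icc _ _)
      (fun z _ => (hy z).continuousAt.continuousWithinAt)
      (fun z _ => (hy z).differentiableAt.differentiableWithinAt) ?_ x (abs_le.1 hx)
      y (abs_le.1 hy2) hxy
    intro z hz
    rw [interior_Icc] at hz
    rw [(hy z).deriv]
    exact hp2 z (abs_le.2 ⟨hz.1.le, hz.2.le⟩)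
  refine ⟨a_le, q_nonneg, H_le, K_le, ψ_zero, ?_, ?_, ?_, c_deriv, c'_cont, c_nonneg, c_le,
    c'_le, κ_le, z_deriv, z'_cont, z_nonneg, z_le, z_one, z_zero, z'_le, τ_ge, τ_le⟩
  · intro t t'
    have := Convex.norm_image_sub_le_of_norm_hasDerivWithin_le (f := ψ) (f' := p) (C := 1)
      (s := univ) (x := t') (y := t) (fun x _ => (hψ x).hasDerivWithinAt)
      (fun x _ => hp x) convex_univ (mem_univ _) (mem_univ _)
    simpa [Real.norm_eq_abs] using this
  · intro t _
    have hb : ∀ s ∈ Icc (-|t|) |t|, ‖1 - p s‖ ≤ C1 * q * (1 + |t|) ^ 2 * exp (2 * √2 * |t|) := by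
      intro s hs
      have hs' : |s| ≤ |t| := abs_le.2 hs
      have := (abs_le.1 (hp s)).2
      rw [Real.norm_eq_abs, abs_of_nonneg (by linarith)]
      refine (hp1 s).trans ?_
      gcongr
    have h0 : (0 : ℝ) ∈ Icc (-|t|) |t| := by simp
    have ht : t ∈ Icc (-|t|) |t| := ⟨neg_abs_le t, le_abs_self t⟩
    have := Convex.norm_image_sub_le_of_norm_hasDerivWithin_le
      (fun s _ => (hy s).hasDerivWithinAt) hb (convex_Icc _ _) h0 ht
    rw [hy0, sub_zero, sub_zero, Real.norm_eq_abs, Real.norm_eq_abs] at this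
    linarith
  · intro t h1 h2
    rcases le_total 0 t with h | h
    · rw [abs_of_nonneg h] at h1 h2
      have := hmono2 0 t (by simp) (by rw [abs_of_nonneg h]; exact h2) h
      rw [hy0] at this
      refine le_trans ?_ (le_abs_self _)
      have : c1 * q * 1 ≤ c1 * q * (t - 0) := by
        have : 0 ≤ c1 * q := by positivity
        gcongr; linarith
      linarith
    · rw [abs_of_nonpos h] at h1 h2
      have := hmono2 t 0 (by rw [abs_of_nonpos h]; exact h2) (by simp) h
      rw [hy0] at this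
      rw [← abs_neg]
      refine le_trans ?_ (le_abs_self _)
      have : c1 * q * 1 ≤ c1 * q * (0 - t) := by
        have : 0 ≤ c1 * q := by positivity
        gcongr; linarith
      linarith

section basic

variable (h : Ray s3 c1 C1 Cz a H K q κ τ T ψ c c' z z')
include h

theorem s3_nonneg : 0 ≤ s3 := (abs_nonneg a).trans h.a_le

theorem T_pos : 0 < T := by have := h.s3_nonneg; have := h.τ_ge; have := h.τ_le; linarith

theorem Cz_nonneg : 0 ≤ Cz := (abs_nonneg _).trans (h.z'_le 0)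

theorem κ_nonneg : 0 ≤ κ := (abs_nonneg _).trans (h.c'_le 0)

theorem c_cont : Continuous c := continuous_iff_continuousAt.2 fun t => (h.c_deriv t).continuousAt

theorem z_cont : Continuous z := continuous_iff_continuousAt.2 fun t => (h.z_deriv t).continuousAt

theorem ψ_cont : Continuous ψ := by
  have : LipschitzWith 1 ψ := LipschitzWith.of_dist_le_mul fun x y => by
    simpa [Real.dist_eq] using h.ψ_lip x y
  exact this.continuous

theorem c_lip (t t' : ℝ) : |c t - c t'| ≤ κ * |t - t'| := by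
  have := Convex.norm_image_sub_le_of_norm_hasDerivWithin_le (f := c) (f' := c') (C := κ)
    (s := univ) (x := t') (y := t) (fun x _ => (h.c_deriv x).hasDerivWithinAt)
    (fun x _ => h.c'_le x) convex_univ (mem_univ _) (mem_univ _)
  simpa [Real.norm_eq_abs] using this

theorem z'_zero_in {t : ℝ} (ht : |t| < τ) : z' t = 0 := by
  have h1 : z =ᶠ[nhds t] fun _ => (1 : ℝ) := by
    have : {s : ℝ | |s| < τ} ∈ nhds t :=
      (isOpen_lt continuous_abs continuous_const).mem_nhds ht
    filter_upwards [this] with s hs using h.z_one s (le_of_lt hs)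
  have h2 : HasDerivAt z 0 t := (hasDerivAt_const t (1 : ℝ)).congr_of_eventuallyEq h1
  exact (h.z_deriv t).unique h2

theorem z'_zero_out {t : ℝ} (ht : T < |t|) : z' t = 0 := by
  have h1 : z =ᶠ[nhds t] fun _ => (0 : ℝ) := by
    have : {s : ℝ | T < |s|} ∈ nhds t :=
      (isOpen_lt continuous_const continuous_abs).mem_nhds ht
    filter_upwards [this] with s hs using h.z_zero s (le_of_lt hs)
  have h2 : HasDerivAt z 0 t := (hasDerivAt_const t (0 : ℝ)).congr_of_eventuallyEq h1
  exact (h.z_deriv t).unique h2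

theorem J_sub_one {t : ℝ} (ht : |t| ≤ T) (hq : C1 * (q * (1 + T) ^ 2) ≤ 1 / 2) :
    |J H K t - 1| ≤ 1 / 2 := by
  have hH := h.H_le
  have hK := h.K_le
  have hT := h.T_pos
  have hCq : 0 ≤ C1 * q := (abs_nonneg _).trans hH
  have h1 : |t * H + t ^ 2 * K| ≤ |t| * (C1 * q) + |t| ^ 2 * (C1 * q) := by
    refine (abs_add_le _ _).trans ?_
    rw [abs_mul, abs_mul, abs_pow]
    gcongr
  have e : J H K t - 1 = t * H + t ^ 2 * K := by simp only [J]; ring
  rw [e]
  refine h1.trans ?_
  have h0 := abs_nonneg t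
  have : |t| + |t| ^ 2 ≤ (1 + T) ^ 2 := by nlinarith
  calc |t| * (C1 * q) + |t| ^ 2 * (C1 * q) = (|t| + |t| ^ 2) * (C1 * q) := by ring
    _ ≤ (1 + T) ^ 2 * (C1 * q) := by gcongr
    _ = C1 * (q * (1 + T) ^ 2) := by ring
    _ ≤ 1 / 2 := hq

/-- reflection of the ray -/
theorem reflect : Ray s3 c1 C1 Cz (-a) (-H) K q κ τ T (fun t => -ψ (-t)) (fun t => c (-t))
    (fun t => -c' (-t)) (fun t => z (-t)) (fun t => -z' (-t)) where
  a_le := by simpa using h.a_le
  q_nonneg := h.q_nonneg
  H_le := by simpa using h.H_le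
  K_le := h.K_le
  ψ_zero := by simp [h.ψ_zero]
  ψ_lip t t' := by
    have := h.ψ_lip (-t') (-t)
    calc |-ψ (-t) - -ψ (-t')| = |ψ (-t') - ψ (-t)| := by congr 1; ring
      _ ≤ |-t' - -t| := this
      _ = |t - t'| := by congr 1; ring
  dev_le t ht := by
    have := h.dev_le (-t) (by simpa using ht)
    rw [abs_neg] at this
    calc |-a + t - -ψ (-t)| = |a + -t - ψ (-t)| := by rw [← abs_neg]; congr 1; ring
      _ ≤ _ := this
  dev_ge t h1 h2 := by
    have := h.dev_ge (-t) (by simpa using h1) (by simpa using h2)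
    calc c1 * q ≤ |a + -t - ψ (-t)| := this
      _ = |-a + t - -ψ (-t)| := by rw [← abs_neg]; congr 1; ring
  c_deriv t := by
    have := (h.c_deriv (-t)).comp t (hasDerivAt_neg t)
    exact this.congr_deriv (by ring)
  c'_cont := (h.c'_cont.comp continuous_neg).neg
  c_nonneg t := h.c_nonneg _
  c_le t := h.c_le _
  c'_le t := by simpa using h.c'_le (-t)
  κ_le := h.κ_le
  z_deriv t := by
    have := (h.z_deriv (-t)).comp t (hasDerivAt_neg t)
    exact this.congr_deriv (by ring)
  z'_cont := (h.z'_cont.comp continuous_neg).neg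
  z_nonneg t := h.z_nonneg _
  z_le t := h.z_le _
  z_one t ht := h.z_one _ (by simpa using ht)
  z_zero t ht := h.z_zero _ (by simpa using ht)
  z'_le t := by simpa using h.z'_le (-t)
  τ_ge := h.τ_ge
  τ_le := h.τ_le

end basic

/-! ### compactly supported integrands -/

theorem integrable_of_zero {f : ℝ → ℝ} (hf : Continuous f) (R : ℝ)
    (h0 : ∀ t, R < |t| → f t = 0) : Integrable f := by
  refine hf.integrable_of_hasCompactSupport ?_
  refine HasCompactSupport.intro (isCompact_Icc (a := -R) (b := R)) fun t ht => h0 t ?_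
  by_contra hc
  exact ht (abs_le.1 (not_lt.1 hc))

/-- the gain density -/
noncomputable def G (a : ℝ) (ψ : ℝ → ℝ) (t : ℝ) : ℝ := 3 * (F (a + t) - F (ψ t)) * g1 (a + t) ^ 2

/-- the left integrand of LI6 -/
noncomputable def lhs (a H K lam : ℝ) (ψ c c' z z' : ℝ → ℝ) (t : ℝ) : ℝ :=
  c t * (J H K t * (g2 (a + t) * z t + g1 (a + t) * z' t) ^ 2 +
    J H K t * (3 * g (ψ t) ^ 2 - 1 + lam) * g1 (a + t) ^ 2 * z t ^ 2) +
    J H K t * c' t * (g1 (a + t) * z t * (g2 (a + t) * z t + g1 (a + t) * z' t))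

/-- the integrand after integration by parts, without the gain -/
noncomputable def mid (a H K lam : ℝ) (c c' z z' : ℝ → ℝ) (t : ℝ) : ℝ :=
  K * (c t * z t ^ 2) * g1 (a + t) ^ 2 +
    g1 (a + t) ^ 2 / 2 * ((H + 2 * t * K) * (c' t * z t ^ 2 + 2 * c t * z t * z' t)) +
    c t * J H K t * g1 (a + t) ^ 2 * z' t ^ 2 +
    lam * (c t * J H K t * g1 (a + t) ^ 2 * z t ^ 2) +
    J H K t * c' t * (g1 (a + t) ^ 2 * z t * z' t)

section ibp

variable (h : Ray s3 c1 C1 Cz a H K q κ τ T ψ c c' z z') (lam : ℝ)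
include h

omit h in
theorem continuous_J : Continuous (J H K) := by unfold J; fun_prop

omit h in
theorem continuous_shift {f : ℝ → ℝ} (hf : Continuous f) : Continuous fun t => f (a + t) :=
  hf.comp (continuous_const.add continuous_id)

theorem continuous_lhs : Continuous (lhs a H K lam ψ c c' z z') := by
  have h1 := continuous_shift (a := a) continuous_g1
  have h2 := continuous_shift (a := a) continuous_g2
  have h3 := continuous_g.comp h.ψ_cont
  have h4 := continuous_J (H := H) (K := K)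
  have h5 := h.c_cont
  have h6 := h.z_cont
  have h7 := h.c'_cont
  have h8 := h.z'_cont
  simp only [Function.comp_def] at h3
  unfold lhs
  fun_prop

theorem continuous_mid : Continuous (mid a H K lam c c' z z') := by
  have h1 := continuous_shift (a := a) continuous_g1
  have h4 := continuous_J (H := H) (K := K)
  have h5 := h.c_cont
  have h6 := h.z_cont
  have h7 := h.c'_cont
  have h8 := h.z'_cont
  unfold mid
  fun_prop

theorem continuous_G : Continuous (G a ψ) := by
  have h1 := continuous_shift (a := a) continuous_g1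
  have h2 := continuous_shift (a := a) continuous_g
  have h3 := continuous_g.comp h.ψ_cont
  simp only [Function.comp_def] at h3
  unfold G F
  fun_prop

theorem integrable_lhs : Integrable (lhs a H K lam ψ c c' z z') := by
  refine integrable_of_zero (h.continuous_lhs lam) T fun t ht => ?_
  simp [lhs, h.z_zero t ht.le, h.z'_zero_out ht]

theorem integrable_mid : Integrable (mid a H K lam c c' z z') := by
  refine integrable_of_zero (h.continuous_mid lam) T fun t ht => ?_
  simp [mid, h.z_zero t ht.le, h.z'_zero_out ht]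

theorem integrable_gain : Integrable (fun t => c t * J H K t * z t ^ 2 * G a ψ t) := by
  refine integrable_of_zero ?_ T fun t ht => ?_
  · have h1 := h.continuous_G
    have h4 := continuous_J (H := H) (K := K)
    have h5 := h.c_cont
    have h6 := h.z_cont
    fun_prop
  · simp [h.z_zero t ht.le]

/-- the exact identity -/
theorem integral_lhs : (∫ t, lhs a H K lam ψ c c' z z' t) =
    (∫ t, mid a H K lam c c' z z' t) - ∫ t, c t * J H K t * z t ^ 2 * G a ψ t := by
  have hh : ∀ t, HasDerivAt (fun t => g1 (a + t)) (g2 (a + t)) t := fun t => by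
    have := (hasDerivAt_g1 (a + t)).comp t ((hasDerivAt_id t).const_add a)
    exact this.congr_deriv (by simp)
  have hg : ∀ t, HasDerivAt (fun t => g (a + t)) (g1 (a + t)) t := fun t => by
    have := (hasDerivAt_g (a + t)).comp t ((hasDerivAt_id t).const_add a)
    exact this.congr_deriv (by simp)
  have hJ : ∀ t, HasDerivAt (fun t => J H K t) (H + 2 * t * K) t := fun t => by
    have := ((hasDerivAt_id t).mul_const H).const_add 1 |>.add
      (((hasDerivAt_id t).pow 2).mul_const K)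
    exact this.congr_deriv (by simp)
  have hJ' : ∀ t, HasDerivAt (fun t => H + 2 * t * K) (2 * K) t := fun t => by
    have := (((hasDerivAt_id t).const_mul 2).mul_const K).const_add H
    exact this.congr_deriv (by simp)
  set P : ℝ → ℝ := fun t => c t * J H K t * (g1 (a + t) * (-(√2 * g (a + t) * g1 (a + t)))) *
    z t ^ 2 - g1 (a + t) ^ 2 / 2 * (c t * (H + 2 * t * K) * z t ^ 2) with hP
  have hPd : ∀ t, HasDerivAt P (lhs a H K lam ψ c c' z z' t -
      (mid a H K lam c c' z z' t - c t * J H K t * z t ^ 2 * G a ψ t)) t := by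
    intro t
    have e1 := ((((h.c_deriv t).mul (hJ t)).mul ((hh t).mul
      (((hg t).const_mul √2).mul (hh t)).neg)).mul ((h.z_deriv t).pow 2))
    have e2 := (((hh t).pow 2).div_const 2).mul
      (((h.c_deriv t).mul (hJ' t)).mul ((h.z_deriv t).pow 2))
    have e3 := e1.sub e2
    refine HasDerivAt.congr_deriv (f := P) e3 ?_
    have hrs := one_sub_g_sq (a + t)
    simp only [lhs, mid, G, F, g2, Pi.mul_apply, Pi.neg_apply, Pi.pow_apply]
    push_cast
    have hr := Real.sq_sqrt (show (0 : ℝ) ≤ 2 by norm_num)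
    linear_combination (c t * J H K t * g1 (a + t) ^ 2 * z t ^ 2) * hrs +
      (c t * J H K t * g (a + t) ^ 2 * g1 (a + t) ^ 2 * z t ^ 2) * hr
  have hPc : Continuous P := continuous_iff_continuousAt.2 fun t => (hPd t).continuousAt
  have hPi : Integrable P := by
    refine integrable_of_zero hPc T fun t ht => ?_
    simp [hP, h.z_zero t ht.le]
  have hI := ((h.integrable_lhs lam).sub ((h.integrable_mid lam).sub h.integrable_gain))
  have h0 := integral_eq_zero_of_hasDerivAt_of_integrable hPd hI hPi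
  have h1 : (∫ t, (lhs a H K lam ψ c c' z z' t -
      (mid a H K lam c c' z z' t - c t * J H K t * z t ^ 2 * G a ψ t))) =
      (∫ t, lhs a H K lam ψ c c' z z' t) - ((∫ t, mid a H K lam c c' z z' t) -
        ∫ t, c t * J H K t * z t ^ 2 * G a ψ t) := by
    rw [← integral_sub (h.integrable_mid lam) h.integrable_gain]
    exact integral_sub (h.integrable_lhs lam) ((h.integrable_mid lam).sub h.integrable_gain)
  rw [h1] at h0
  linarith

end ibp

end Ray

end Vale.Agent.P134.H873
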